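import Vale.Agent.P022G.Ps.Defs
import Vale.Agent.P022S.Mod.Gw

/-!
# P022S: the target of the forms side
-/

set_option linter.all false

open IsLocalRing

noncomputable section

namespace Vale.Agent.P022S.Wx

open Vale.Agent.P022 Vale.Agent.P022E.R Vale.Agent.P022E.As
open Vale.Agent.P022E.Loc (Pl)
open Vale.Agent.P022G.Ps (Ps2)
open Vale.Agent.P022S.Mod (Dm)

/-- auxiliary primes -/
structure AqS (A : Finset ℕ) (n q : ℕ) : Prop where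
  prime : q.Prime
  out : q ∉ A
  one : 2 ^ n ∣ q - 1
  two : ∃ z : ZMod q, z ^ 2 ^ n = 2

variable {O F : Type} [CommRing O] [IsLocalRing O] [Field F]

/-- **the target of the forms side**; the principal series part is there when `ps` holds -/
structure HDX (ps : Prop) (ϖ : O) (S : Dat O F) (L : Pl O) {I : Type} (Y0 : I → Type) (W0 : Type)
    [∀ i, AddCommGroup (Y0 i)] [∀ i, Module (Tg O) (Y0 i)] [AddCommGroup W0] [Module (Tg O) W0]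
    (ses : I → I → I → Prop) (ig ib : I) (iJ : Finset L.C → I) : Prop where
  comb : ∀ a a' : L.C → ℕ, (∀ l : L.C, ∃ u, (l : ℕ) = 2 ^ (a l + 1) * (2 * u + 1) + 1) →
    (∀ l : L.C, ∃ v, (l : ℕ) + 1 = 2 ^ (a' l + 1) * (2 * v + 1)) →
    ∀ N : I → ℕ∞, (∀ i j k, ses i j k → N j = N i + N k) →
      ∀ J, (mul2 a a' J : ℕ∞) * N (iJ J) ≤ N ig
  low : ps → ∀ N : I → ℕ∞, (∀ i j k, ses i j k → N j = N i + N k) →
    (N ib ≠ 0 ↔ ∃ J, N (iJ J) ≠ 0)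
  gm0 : ∀ i, Gm ϖ L S.T ∅ 0 (Y0 i)
  gmW : Gm ϖ L S.T ∅ 0 W0
  dm0 : ∀ i, Dm O S.T ∅ (Y0 i)
  dmW : Dm O S.T ∅ W0
  pi0 : ∀ i (w : Y0 i), cc ϖ • w = 0
  sb0 : ∀ i, ∃ b, Sb2 (mT L.r) b (Y0 i)
  det0 : ∀ J g, ∃ n : ℕ, 0 < n ∧ ∀ w : Y0 (iJ J), (dd g : Tg O) ^ n • w = w
  big : ∀ J : Finset L.C, Big (mT L.r) (Y0 (iJ J))
  lev : ∀ r : ℕ, ∃ (b : I → ℕ) (c n₀ : ℕ) (A : Finset ℕ), ∀ (n : ℕ) (q : Fin r → ℕ),
    Function.Injective q → (∀ i, AqS (A ∪ S.T) (n + n₀) (q i)) →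
    ∃ (τ φ : Fin r → GQ) (Yb : I → Type) (Wc : Type) (Pc : L.C → Type)
      (_ : ∀ i, AddCommGroup (Yb i)) (_ : ∀ i, Module (Tg O) (Yb i)) (_ : AddCommGroup Wc)
      (_ : Module (Tg O) Wc) (_ : ∀ a, AddCommGroup (Pc a)) (_ : ∀ a, Module (Tg O) (Pc a)),
      Lv2 ϖ S L Y0 W0 ses ig iJ b c n q τ φ Yb Wc ∧
      (∀ i, Dm O S.T (Finset.univ.image q) (Yb i)) ∧ Dm O S.T (Finset.univ.image q) Wc ∧
      (ps → ∀ a : L.C, 4 ∣ (a : ℕ) - 1 → L.r (L.τ a) = 1 →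
        Ps2 ϖ S L n q τ (L.τ a) (Yb ib) (Pc a) ∧ Dm O S.T (Finset.univ.image q) (Pc a))

end Vale.Agent.P022S.Wx
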