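import Vale.Agent.P022S.Wx.Defs
import Vale.Agent.P022S.Fp.FmDia
import Vale.Agent.P022S.Fp.FmRows
import Vale.Agent.P022S.Fp.FmBasic
import Vale.Agent.P022E.Fm.Red

/-!
# P022S: the forms side for the places outside the auxiliary primes, from the rows
-/

set_option linter.all false

noncomputable section

namespace Vale.Agent.P022S.Wx

open Vale.Agent.P022 Vale.Agent.P022D.V Vale.Agent.P022E.V Vale.Agent.P022E.Fm
open Vale.Agent.P022D.W.Step (kl Dv mem_kl mem_kl1 kl_le)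
open Vale.Agent.P022D.Fm (Mt AM rD HA)
open Vale.Agent.P022D.As (Tg cc tt dd mT Sb2)
open Vale.Agent.P022D.Rep (XS XJ)
open Vale.Agent.P022E.As (Lv2)
open Vale.Agent.P022G (subL resJ)

variable {O F : Type} [CommRing O] [IsLocalRing O] [Co O] [Field F] {U : Su O F} {X : Finset ℕ}
  [CharP F 2] [hC : ∀ l : U.L.C, Fact l.1.Prime]
  {Cc : ∀ l : U.L.C, P022D.Rep.Ch (ZMod l.1) F}

theorem ex_lqS (hU : U.OkS) (h1 : HC U) (h2 : GOP U) (h4 : ACT U) (r n : ℕ) (q : Fin r → ℕ)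
    (hq : Function.Injective q) (ha : ∀ i, AqS U.S.T (n + 1) (q i)) : Nonempty (Lq U r n q) := by
  obtain ⟨b, τ, hL⟩ := exLvGs (n := n) hU hq (fun i => ⟨(ha i).prime, (ha i).out⟩)
    (fun i => (ha i).one) fun i => by
      obtain ⟨z, hz⟩ := (ha i).two
      exact ⟨z ^ 2, by rw [← pow_mul, ← pow_succ', hz]⟩
  have hm := hL.lm1Gs hU
  obtain ⟨t, d, ho⟩ := (h2 _ hm.odd hm.asm_three).1
  obtain ⟨E, hE⟩ := h4 _ n hm t d ho
  have hc := h1 _ hm.odd hm.asm_three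
  choose u1 hu1 using fun i => hc.ex 1 (b i) (asm_cg_one (asm_cg_mono (hL.asm_dvd i) (hL.b1 i)))
  choose u2 hu2 using fun i =>
    hc.ex (b i) (b i)⁻¹ (asm_cg_inv (asm_cg_mono (hL.asm_dvd i) (hL.b1 i)))
  exact ⟨⟨_, b, τ, ⟨t, d, E⟩, Sum.elim u1 u2, hL, hE, fun i => ⟨hu1 i, hu2 i⟩⟩⟩

theorem jw_no (hU : U.OkS) {M n : ℕ} (D : Dt U M n) {c : U.B M} (h : c ∈ D.JW) : False := by
  rcases h with ⟨g, ⟨l, hl, -⟩, -⟩ | ⟨l, hl, -⟩
  · exact hU.ok.nW hl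
  · exact hU.ok.nW hl

theorem kl_jw (hU : U.OkS) {M n : ℕ} (D : Dt U M n) (K : Submodule (U.B M) (U.GG M)) :
    kl K D.JW = K :=
  le_antisymm (kl_le _ _) fun _ h => ⟨h, fun _ hc => (jw_no hU D hc).elim⟩

theorem wx_le {M n : ℕ} (D : Dt U M n) : Wx X D ≤ D.Z :=
  fun _ h => ⟨fun e he => (h.1 e he).1.1, h.2⟩

omit [CharP F 2] hC in
theorem dvd_AX {M a : ℕ} (hX : Ux U X) (hM : U.N ∣ M) (ha : a ∈ X) : M / AX X ∣ M / a := by
  have h1 : a ∣ AX X := Finset.dvd_prod_of_mem _ ha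
  have h2 : AX X ∣ M := by
    refine Dvd.dvd.trans ?_ hM
    rw [Su.N, hX.ok.NC]
    exact (Finset.prod_dvd_prod_of_subset _ _ _ hX.sub).mul_left _
  exact Nat.div_dvd_div_left h2 h1

theorem wx_iv (hX : Ux U X) {M n : ℕ} (hM : U.N ∣ M) (D : Dt U M n) {v : U.GG M}
    (h : v ∈ Wx X D) {a : ℕ} (ha : a ∈ X) : (v : AM O M) ∈ Iv O (RD O) (Kq M (M / a)) :=
  fun g hg => (P022D.Fm.mem_of_sub h.1).2 g (Kq_mono (dvd_AX hX hM ha) hg)

theorem mem_up {J : Finset (subL U.L X).C} (l : (subL U.L X).C) :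
    (⟨l.1, (Finset.mem_sdiff.1 l.2).1⟩ : U.L.C) ∈ up U X J ↔ l ∈ J := by
  simp only [up, Finset.mem_filter, Finset.mem_univ, true_and]
  exact ⟨fun ⟨_, h⟩ => h, fun h => ⟨l.2, h⟩⟩

theorem up_res {J : Finset U.L.C} (hJ : ∀ a ∈ J, (a : ℕ) ∉ X) : up U X (resJ X J) = J := by
  ext l
  simp only [up, resJ, Finset.mem_filter, Finset.mem_univ, true_and]
  exact ⟨fun ⟨_, h⟩ => h, fun h => ⟨Finset.mem_sdiff.2 ⟨l.2, hJ l h⟩, h⟩⟩

/-- **the modules of both families agree** -/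
theorem trX (P0 : L0 U) {J : Finset U.L.C} (hJ : ∀ a ∈ J, (a : ℕ) ∉ X) :
    P022G.Tr O (P0.Yb (XJ U.bn Cc J)) (P0.Yb (iJX U X Cc (resJ X J)).1) := by
  change P022G.Tr O _ (P0.Yb (XJ U.bn Cc (up U X (resJ X J))))
  rw [up_res hJ]
  exact fun w => ⟨{w}, fun p hp => hp w (Finset.mem_singleton_self w)⟩

variable (U X Cc) in
/-- the rows -/
structure Rx : Prop where
  dv : DVX U X
  y : YX U X Cc
  k : KX U X Cc
  gm : GMX U X
  cy : CYX U X
  ds : DSX U X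
  comb : COMBX U X Cc

theorem lv2X (hX : Ux U X) (R : Rw U Cc) (Q : Rx U X Cc) {S' : P022D.R.Dat O F}
    (hT : S'.T = U.S.T \ X) (P0 : L0 U) {r n : ℕ} {q : Fin r → ℕ} (P : Lq U r n q)
    (φ : Fin r → GQ) (hφ : ∀ i, IsFrob (q i) (φ i)) {b : ℕ}
    (hb : ∀ i : Ix U Cc, Sb2 (mT U.L.r) b (P.Yb i)) :
    Lv2 U.ϖ S' (subL U.L X) (fun i : IZ U X Cc => P0.Yb i.1) (Mt P0.ev (Wx X P0.X))
      (SesZ U X Cc) (igX U X Cc) (iJX U X Cc) (fun _ => b) 5 n q P.τ φ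
      (fun i : IZ U X Cc => P.Yb i.1) (Mt P.ev (WxC X P.X (n + 1))) := by
  have o := lv2_of R.gmr R.dia R.exf R.red R.cyf R.urf R.nwf R.fib R.dsc P0 P φ hφ b hb
  have zc : WxC X P.X (n + 1) ≤ P.X.Z := (kl_le _ _).trans (wx_le _)
  have ec : P.ev (cc U.ϖ) = algebraMap O _ U.ϖ := Red.ev_cc _ _ _
  have ep : algebraMap O (U.B P.M) (U.ϖ ^ (n + 1)) = P.ev (cc U.ϖ) ^ (n + 1) := by
    rw [ec, map_pow]
  exact
    { hτ := o.hτ
      hφ := hφ
      gm := fun i => hT ▸ (Q.gm r n q P _ (Fb.y_le _ _) (Q.k r n q P i)).1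
      gmC := hT ▸ (Q.gm r n q P _ zc fun v hv a ha => wx_iv hX P.lv.dvd P.X hv.1 ha).1
      dia := fun i => o.dia i.1
      diaC := (R.dia r n q P).2 _ fun _ hv => (zc hv).1
      ex := fun i j k s => o.ex i.1 j.1 k.1 s
      sb := fun i => hb i.1
      pi := fun i => o.pi i.1
      free := fun i => o.free i.1
      fib := fun i => o.fib i.1
      red := Red.red_abs P.ev (cc U.ϖ) n (by
        change kl (P.X.Y1 (XS U.bn Cc (SX U X)).v) P.X.JW = kl (kl _ _) _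
        rw [kl_jw hX.ok, kl_jw hX.ok, ec]
        exact Q.y r n q P) ep
      piC := Red.piC_abs P.ev (cc U.ϖ) (n + 1) ep
      flat := Red.flat_abs P.ev (cc U.ϖ) n ep (by
        rw [ec, Wx, kl_jw hX.ok]
        exact Q.dv _ n (R.lq.1 _ _ _ _ _ _ P.lv))
      cyc := Q.cy r n q P
      unr := fun J l hl => o.unr (up U X J) ⟨l.1, (Finset.mem_sdiff.1 l.2).1⟩
        fun h => hl ((mem_up l).1 h)
      new := fun J l hl => o.new (up U X J) ⟨l.1, (Finset.mem_sdiff.1 l.2).1⟩ ((mem_up l).2 hl)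
      desc := Q.ds P0 r n q P φ hφ }

/-- **the forms side for the places outside `X`** -/
theorem hdX (hX : Ux U X) (R : Rw U Cc) (hB : BIGGs U Cc) (Q : Rx U X Cc) (P0 : L0 U)
    {S' : P022D.R.Dat O F} (hT : S'.T = U.S.T \ X) : HX U X Cc P0 S' := by
  have e0 : Finset.univ.image (Fin.elim0 : Fin 0 → ℕ) = ∅ := Finset.image_empty _
  have g0 := fun i : IZ U X Cc => Q.gm 0 0 _ P0 _ (Fb.y_le _ _) (Q.k 0 0 _ P0 i)
  have gW := Q.gm 0 0 _ P0 _ (wx_le P0.X) fun v hv a ha => wx_iv hX P0.lv.dvd P0.X hv ha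
  rw [e0, ← hT] at g0 gW
  refine
    { comb := Q.comb
      low := False.elim
      gm0 := fun i => (g0 i).1
      gmW := gW.1
      dm0 := fun i => (g0 i).2
      dmW := gW.2
      pi0 := fun i => (R.red 0 0 _ P0).2.1 i.1
      sb0 := fun i => (R.sbr 0).imp fun b hb => hb 0 _ P0 i.1
      det0 := fun J g => ⟨1, Nat.one_pos, R.dt0 P0 _ g⟩
      big := fun J => hB P0 _
      lev := fun r => ?_ }
  obtain ⟨b, hb⟩ := R.sbr r
  refine ⟨fun _ => b, 5, 1, X, fun n q hq ha => ?_⟩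
  obtain ⟨P⟩ := ex_lqS hX.ok R.hc R.gop R.act r n q hq fun i =>
    ⟨(ha i).prime, fun h => (ha i).out (by
      rw [hT, Finset.union_sdiff_self_eq_union]
      exact Finset.mem_union_right _ h), (ha i).one, (ha i).two⟩
  choose φ hφ using fun i => H20.exists_isFrob (ha i).prime
  exact ⟨P.τ, φ, fun i => P.Yb i.1, Mt P.ev (WxC X P.X (n + 1)), fun _ => PUnit, inferInstance,
    inferInstance, inferInstance, inferInstance, inferInstance, inferInstance,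
    lv2X hX R Q hT P0 P φ hφ (hb n q P),
    fun i => hT ▸ (Q.gm r n q P _ (Fb.y_le _ _) (Q.k r n q P i)).2,
    hT ▸ (Q.gm r n q P _ ((kl_le _ _).trans (wx_le _))
      fun v hv a ha => wx_iv hX P.lv.dvd P.X hv.1 ha).2, False.elim⟩

end Vale.Agent.P022S.Wx
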