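import Vale.Agent.P022S.Wx.Defs
import Vale.Agent.P022E.Rep.Hd

/-!
# P022S: the row COMBX
-/

set_option linter.all false

noncomputable section

namespace Vale.Agent.P022S.Wx

open Vale.Agent.P022 Vale.Agent.P022D.V Vale.Agent.P022E.V Vale.Agent.P022E.Fm
open Vale.Agent.P022D.Rep (XS XJ XG SesX It TX Tu)
open Vale.Agent.P022G (subL)

variable {O F : Type} [CommRing O] [IsLocalRing O] [Co O] [Field F] (U : Su O F) (X : Finset ℕ)
  [CharP F 2] [hC : ∀ l : U.L.C, Fact l.1.Prime]
  (Cc : ∀ l : U.L.C, P022D.Rep.Ch (ZMod l.1) F)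

namespace Cb

/-- the inclusion of the places -/
abbrev em (l : (subL U.L X).C) : U.L.C := ⟨l.1, (Finset.mem_sdiff.1 l.2).1⟩

/-- extension of a dependent function -/
def ext {S : U.L.C → Type} (d : ∀ a, S a) (I : ∀ l : (subL U.L X).C, S (em U X l)) :
    ∀ a, S a := fun a => if h : a.1 ∈ (subL U.L X).C then I ⟨a.1, h⟩ else d a

theorem ext_upd {S : U.L.C → Type} (d : ∀ a, S a) (I : ∀ l : (subL U.L X).C, S (em U X l))
    (i : (subL U.L X).C) (p : S (em U X i)) :
    ext U X d (Function.update I i p) = Function.update (ext U X d I) (em U X i) p := by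
  funext a
  by_cases e : a = em U X i
  · subst e
    rw [Function.update_self]
    unfold ext
    rw [dif_pos i.2]
    exact Function.update_self i p I
  · rw [Function.update_of_ne e]
    unfold ext
    by_cases h : a.1 ∈ (subL U.L X).C
    · rw [dif_pos h, dif_pos h]
      exact Function.update_of_ne (fun k => e (by rw [← k])) _ _
    · rw [dif_neg h, dif_neg h]

end Cb

theorem combxC : COMBX U X Cc := by
  intro a a' h1 h2 N hN J
  haveI : ∀ l : (subL U.L X).C, Fact l.1.Prime := fun l => hC (Cb.em U X l)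
  have o : ∀ b : U.L.C, b.1 ∈ (subL U.L X).C ↔ b.1 ∉ X := fun b =>
    ⟨fun h => (Finset.mem_sdiff.1 h).2, fun h => Finset.mem_sdiff.2 ⟨b.2, h⟩⟩
  let d : TX U.bn Cc := fun b => ⟨It F (U.Gam b), Or.inr rfl⟩
  let E : TX (fun l : (subL U.L X).C => P022D.Rep.bnP (ZMod l.1)) (fun l => Cc (Cb.em U X l)) →
      IZ U X Cc := fun I => ⟨Cb.ext U X d I, fun b hb => by
        unfold Cb.ext
        rw [dif_neg fun k => (o b).1 k hb]⟩
  have ev : ∀ I, (E I).1.v = Cb.ext U X (fun b => It F (U.Gam b)) I.v := fun I => by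
    funext b
    show (Cb.ext U X d I b).1 = _
    unfold Cb.ext
    by_cases h : b.1 ∈ (subL U.L X).C
    · rw [dif_pos h, dif_pos h]
      rfl
    · rw [dif_neg h, dif_neg h]
  have k := P022E.Rep.combL (fun l : (subL U.L X).C => l.1) (fun l => Cc (Cb.em U X l)) a a' h1 h2
    (fun I => N (E I)) (fun i j k s => hN _ _ _ (by
      obtain ⟨I, l, p, q, x, hx, e1, e2, e3⟩ := s
      exact ⟨Cb.ext U X (fun b => It F (U.Gam b)) I, Cb.em U X l, p, q, x, hx,
        by rw [ev, e1, Cb.ext_upd], by rw [ev, e2, Cb.ext_upd], by rw [ev, e3, Cb.ext_upd]⟩)) J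
  have e1 : E (XJ _ _ J) = iJX U X Cc J := by
    refine Subtype.ext (funext fun b => ?_)
    show Cb.ext U X d _ b = XJ U.bn Cc (up U X J) b
    unfold Cb.ext XJ
    by_cases h : b.1 ∈ (subL U.L X).C
    · rw [dif_pos h]
      by_cases hj : (⟨b.1, h⟩ : (subL U.L X).C) ∈ J
      · rw [if_pos hj, if_pos (show b ∈ up U X J from
          Finset.mem_filter.2 ⟨Finset.mem_univ _, h, hj⟩)]
      · rw [if_neg hj, if_neg (show b ∉ up U X J from fun m =>
          (Finset.mem_filter.1 m).2.elim fun _ m' => hj m')]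
    · rw [dif_neg h, if_neg (show b ∉ up U X J from fun m =>
        (Finset.mem_filter.1 m).2.elim fun m' _ => h m')]
  have e2 : E (XG _ _) = igX U X Cc := by
    refine Subtype.ext (funext fun b => ?_)
    show Cb.ext U X d _ b = XS U.bn Cc (SX U X) b
    unfold Cb.ext XS
    by_cases h : b.1 ∈ (subL U.L X).C
    · rw [dif_pos h, if_pos (show b ∈ SX U X from
        Finset.mem_filter.2 ⟨Finset.mem_univ _, (o b).1 h⟩)]
      rfl
    · rw [dif_neg h, if_neg (show b ∉ SX U X from fun m =>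
        h ((o b).2 (Finset.mem_filter.1 m).2))]
  rw [← e1, ← e2]
  exact k

end Vale.Agent.P022S.Wx
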