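import Vale.Agent.P022D.V.All1
import Vale.Agent.P022D.Fm.RaiseT
import Vale.Agent.P022E.Fm.CycA

/-!
# P022S, forms side: depletion at primes where the vector is invariant under the whole group
-/

set_option linter.all false

noncomputable section

namespace Vale.Agent.P022S.Dep

open Vale.Agent.P022 Vale.Agent.P027M.M Vale.Agent.P022D.V Vale.Agent.P022D.Fm Finset

theorem reidx {A : Type} [AddCommMonoid A] {q : ℕ} (hq : 0 < q) (F : ℕ → A)
    (hF : ∀ x y, x ≡ y [MOD q] → F x = F y) {j : ℕ} (hj : Nat.Coprime j q) (c : ℕ) :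
    ∑ x ∈ range q, F (j * x + c) = ∑ x ∈ range q, F x := by
  have inj : ∀ x ∈ range q, ∀ y ∈ range q, (j * x + c) % q = (j * y + c) % q → x = y :=
    fun x hx y hy e => Nat.ModEq.eq_of_lt_of_lt
      (Nat.ModEq.cancel_left_of_coprime hj.symm (Nat.ModEq.add_right_cancel' c e))
      (mem_range.1 hx) (mem_range.1 hy)
  refine Finset.sum_bij (fun x _ => (j * x + c) % q) (fun x _ => mem_range.2 (Nat.mod_lt _ hq))
    inj (fun y hy => ?_) fun x _ => hF _ _ (Nat.mod_modEq _ _).symm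
  obtain ⟨x, hx, e⟩ := Finset.surj_on_of_inj_on_of_card_le (fun x _ => (j * x + c) % q)
    (fun x _ => mem_range.2 (Nat.mod_lt _ hq)) (fun a b ha hb => inj a ha b hb) le_rfl y hy
  exact ⟨x, hx, e.symm⟩

section formal

variable {S R : Type} [CommRing S] [CommRing R] [Algebra S R] {M M₀ q : ℕ} {z : S}

/-- `z ^ x` times the translation by `un x` -/
def tw (R : Type) [CommRing R] [Algebra S R] (M : ℕ) (z : S) (x : ℕ) : Module.End S (FT M R) :=
  z ^ x • (rt S R (un (x : ZMod M))).toLinearMap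

theorem tw_apply (z : S) (x : ℕ) (w : FT M R) :
    tw R M z x w = z ^ x • rt S R (un (x : ZMod M)) w := rfl

theorem tw_add (z : S) (x y : ℕ) (w : FT M R) :
    tw R M z x (tw R M z y w) = tw R M z (x + y) w := by
  rw [tw_apply, tw_apply, tw_apply, map_smul, smul_smul, rt_rt, Gn.un_mul, pow_add, Nat.cast_add]

theorem tw_mod (hz : z ^ M = 1) {x y : ℕ} (h : x ≡ y [MOD M]) (w : FT M R) :
    tw R M z x w = tw R M z y w := by
  rw [tw_apply, tw_apply, (ZMod.natCast_eq_natCast_iff _ _ _).2 h, pow_eq_pow_mod x hz,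
    pow_eq_pow_mod y hz, h]

/-- the component of the character `z` of the unipotent group at `q` -/
def pj (R : Type) [CommRing R] [Algebra S R] (M M₀ q : ℕ) (z : S) : Module.End S (FT M R) :=
  ∑ x ∈ range q, tw R M z (M₀ * x)

theorem pj_apply (w : FT M R) : pj R M M₀ q z w = ∑ x ∈ range q, tw R M z (M₀ * x) w := by
  rw [pj, LinearMap.sum_apply]

theorem pj_comm (f : Module.End S (FT M R)) (w : FT M R)
    (hf : ∀ x : ZMod M, f (rt S R (un ((M₀ : ZMod M) * x)) w) =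
      rt S R (un ((M₀ : ZMod M) * x)) (f w)) :
    pj R M M₀ q z (f w) = f (pj R M M₀ q z w) := by
  rw [pj_apply, pj_apply, map_sum]
  refine Finset.sum_congr rfl fun x _ => ?_
  rw [tw_apply, tw_apply, map_smul, Nat.cast_mul, hf]

theorem pj_rt (g : GM M) (w : FT M R)
    (hg : ∀ x : ZMod M, un ((M₀ : ZMod M) * x) * g = g * un ((M₀ : ZMod M) * x)) :
    pj R M M₀ q z (rt S R g w) = rt S R g (pj R M M₀ q z w) := by
  rw [pj_apply, pj_apply, map_sum]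
  refine Finset.sum_congr rfl fun x _ => ?_
  rw [tw_apply, tw_apply, map_smul, Nat.cast_mul, rt_rt, rt_rt, hg]

variable (h : Sp M M₀ q) (hz : z ^ M = 1)
include h hz

theorem per (w : FT M R) (x y : ℕ) (e : x ≡ y [MOD q]) :
    tw R M z (M₀ * x) w = tw R M z (M₀ * y) w :=
  tw_mod hz (by rw [h.eq]; exact e.mul_left' M₀) w

theorem tw_pj (y : ℕ) (w : FT M R) : tw R M z (M₀ * y) (pj R M M₀ q z w) = pj R M M₀ q z w := by
  rw [pj_apply, map_sum, ← reidx h.prime.pos _ (per h hz w) (Nat.coprime_one_left q) y]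
  refine Finset.sum_congr rfl fun x _ => ?_
  rw [tw_add, one_mul, mul_add, add_comm]

theorem pj_wh {B : ℕ} {w : FT M R} (hw : ∀ x, tw R M z (q * B * x) w = w) (x : ℕ) :
    tw R M z (B * x) (pj R M M₀ q z w) = pj R M M₀ q z w := by
  obtain ⟨n, n1, n2⟩ := Nat.chineseRemainder h.cop 0 1
  obtain ⟨m, m1, m2⟩ := Nat.chineseRemainder h.cop 1 0
  obtain ⟨a, rfl⟩ := Nat.modEq_zero_iff_dvd.1 n1
  obtain ⟨b, rfl⟩ := Nat.modEq_zero_iff_dvd.1 m2
  have e : M₀ * a + q * b ≡ 1 [MOD M] := by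
    rw [h.eq, ← Nat.modEq_and_modEq_iff_modEq_mul h.cop]
    exact ⟨n1.add m1, n2.add m2⟩
  have e1 : B * x ≡ q * B * (b * x) + M₀ * (a * B * x) [MOD M] := by
    have := (e.mul_left (B * x)).symm
    rwa [mul_one, show B * x * (M₀ * a + q * b) = q * B * (b * x) + M₀ * (a * B * x) by ring]
      at this
  rw [tw_mod hz e1, ← tw_add, tw_pj h hz, pj_apply, map_sum]
  refine Finset.sum_congr rfl fun y _ => ?_
  rw [tw_add, add_comm, ← tw_add, hw]

theorem pj_ker (hc : ∀ x, 0 < x → x < q → ∑ j ∈ range q, (z ^ (M₀ * x)) ^ j = 0) {y : FT M R}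
    (ht : ∀ a : (ZMod M)ˣ, Cg M M₀ a 1 → rt S R (dg a 1) y = y) (h0 : pj R M M₀ q z y = 0) :
    (q : S) • y = Nu S R M M₀ q y := by
  have hq := h.prime.pos
  have k1 : ∀ j ∈ range q, j ≠ 0 → ∑ x ∈ range q,
      (z ^ (M₀ * x)) ^ j • rt S R (un ((M₀ : ZMod M) * (x : ZMod M))) y = 0 := by
    intro j hj j0
    have cj : Nat.Coprime j q :=
      (Nat.coprime_of_lt_prime j0 (mem_range.1 hj) h.prime).symm
    obtain ⟨n, n1, n2⟩ := Nat.chineseRemainder h.cop 1 j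
    have cn : Nat.Coprime n M := by
      rw [h.eq]
      refine Nat.Coprime.mul_right ?_ ?_
      · rw [Nat.Coprime, n1.gcd_eq, Nat.gcd_one_left]
      · rw [Nat.Coprime, n2.gcd_eq]
        exact cj
    have a1 : Cg M M₀ (ZMod.unitOfCoprime n cn : (ZMod M)ˣ) 1 := by
      obtain ⟨t, ht⟩ := n1.symm.dvd
      have := congrArg (Int.cast : ℤ → ZMod M) ht
      push_cast at this
      exact ⟨t, by rw [ZMod.coe_unitOfCoprime]; linear_combination this⟩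
    have e : rt S R (dg (ZMod.unitOfCoprime n cn) 1) (∑ x ∈ range q,
        (z ^ (M₀ * x)) ^ j • rt S R (un ((M₀ : ZMod M) * (x : ZMod M))) y) = 0 := by
      rw [← h0, pj_apply, map_sum, ← reidx hq _ (per h hz y) cj 0]
      refine Finset.sum_congr rfl fun x _ => ?_
      have e2 : (M₀ : ZMod M) * (x : ZMod M) *
          ((ZMod.unitOfCoprime n cn * 1⁻¹ : (ZMod M)ˣ) : ZMod M) = (M₀ * (j * x + 0) : ℕ) := by
        rw [inv_one, mul_one, ZMod.coe_unitOfCoprime, ← Nat.cast_mul, ← Nat.cast_mul,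
          ZMod.natCast_eq_natCast_iff, add_zero, mul_assoc, mul_comm j]
        have e4 := (n2.mul_left x).mul_left' (c := M₀)
        rwa [← h.eq] at e4
      rw [map_smul, rt_rt, Gn.dg_un, ← rt_rt, ht _ a1, e2, tw_apply, ← pow_mul, add_zero,
        mul_assoc, mul_comm x j]
    have e3 := congrArg (rt S R (dg (ZMod.unitOfCoprime n cn) 1)⁻¹) e
    rwa [rt_rt, inv_mul_cancel, rt_one, map_zero] at e3
  have k2 := Finset.sum_eq_single_of_mem 0 (mem_range.2 hq) k1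
  rw [Finset.sum_comm, Finset.sum_eq_single_of_mem 0 (mem_range.2 hq) fun x hx x0 => by
    rw [← Finset.sum_smul, hc x (Nat.pos_of_ne_zero x0) (mem_range.1 hx), zero_smul]] at k2
  have u0 : (un ((M₀ : ZMod M) * ((0 : ℕ) : ZMod M)) : GM M) = 1 := by
    apply Units.ext
    rw [un_coe, Nat.cast_zero, mul_zero, Units.val_one, Matrix.one_fin_two]
  simp only [u0, rt_one, mul_zero, pow_zero, one_pow, one_smul, Finset.sum_const,
    Finset.card_range] at k2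
  rw [Gn.Nu_apply, ← k2, Nat.cast_smul_eq_nsmul]

theorem ker_K (hc : ∀ x, 0 < x → x < q → ∑ j ∈ range q, (z ^ (M₀ * x)) ^ j = 0)
    (hq : IsUnit (q : S)) {s : GM M} (hs : IsS M M₀ s) {w : FT M R}
    (hw : w ∈ Iv S R (Bq M M₀)) (h0 : pj R M M₀ q z (rt S R s w) = 0) :
    w ∈ Iv S R (Kq M M₀) := by
  haveI : NeZero M := ⟨h.odd.pos.ne'⟩
  obtain ⟨-, -, g3, -, -, g6, -⟩ := grp M M₀ q h
  obtain ⟨ss, sd⟩ := g3 s hs
  have tor : ∀ a d : (ZMod M)ˣ, Cg M M₀ a 1 → Cg M M₀ d 1 →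
      rt S R (dg a d) (rt S R s w) = rt S R s w := fun a d ha hd => by
    rw [rt_rt, ← sd d a hd ha, ← rt_rt, mem_Iv.1 hw _ (Rz.dg_B hd ha)]
  have h1 := pj_ker h hz hc (fun a ha => tor a 1 ha (Gn.cg_one M₀)) h0
  have e2 : rt S R s (rt S R s w) = w := by rw [rt_rt, ss, rt_one]
  have e3 := (g6 (Gn.St S (rt S R s w)) s hs (by
    rintro _ ⟨x, rfl⟩
    constructor
    · change rt S R _ _ = _
      apply hq.smul_left_cancel.1
      rw [← map_smul, h1, Gn.rt_Nu_un h]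
    · change rt S R _ _ = _
      rw [← rt_rt, ← rt_rt, e2, mem_Iv.1 (Rz.B_U hw) _ ⟨x, rfl⟩])).2
    fun d hd => tor 1 d (Gn.cg_one M₀) hd
  have e4 : w = rt S R s w := e2.symm.trans (e3 s hs.1)
  refine mem_Iv.2 fun g hg => ?_
  rw [e4]
  exact e3 g hg

end formal

variable {O : Type} [CommRing O] [Co O]

theorem vr (O : Type) [CommRing O] [Co O] : Vr O :=
  ⟨root O, vs3 O, All.descv O, All.wv O, All.ih O, grp, wf1, All.wf2⟩

/-- Ihara's lemma on the divisible carrier -/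
theorem ihD {π : O} (hπ : Unif π) {M M₀ q : ℕ} (h : Sp M M₀ q) (h3 : 3 ≤ M₀) (i k : ℕ)
    {v : FT M (RD O)} (hv : v ∈ XD1 O M (i + 1)) (hK : v ∈ Iv O _ (Kq M M₀))
    (hW : W1 O _ M M₀ q (zD O M) k v ∈ Iv O _ (Kq M M₀)) : v = 0 := by
  have hM : 3 ≤ M := h3.trans (Nat.le_of_dvd h.odd.pos h.dvd)
  obtain ⟨d1, d2, -, d4, -⟩ := All.div O M h.odd hM
  have h2 : π ∣ 2 := hπ.dvd 2 (root O M h.odd).2.2.2.2.2.2.2.2.1
  have soc : ∀ v ∈ XD1 O M (i + 1), v ∈ Iv O _ (Kq M M₀) →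
      W1 O _ M M₀ q (zD O M) k v ∈ Iv O _ (Kq M M₀) → π • v = 0 → v = 0 := by
    intro v hv hK hW h0
    obtain ⟨x, hx, rfl⟩ := ((d2 (i + 1) π hπ.ne).2 v).1 ⟨hv, h0⟩
    have iv : ∀ y : FT M (RR π), ml O M (dv π) y ∈ Iv O _ (Kq M M₀) → y ∈ Iv O _ (Kq M M₀) :=
      fun y hy => mem_Iv.2 fun g hg => d1 π hπ.ne (by rw [ml_rt, mem_Iv.1 hy g hg])
    have xb : x ∈ Vb M π := ⟨(par O M h.odd hM).2 (i + 1) π h2 ▸ hx.1, hx.2⟩
    rw [← ml_W1 (dv π) M₀ q (z := zR M π) (z' := zD O M) (fun y => (Tr.dv_mul _ y).symm)] at hW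
    have hd := ((All.descv O M₀ M h.dvd h.odd h3).1 0 π hπ.ne).2.2.2
    have m := Vb_W (vr O) hπ h hM k xb (Rz.B_U (Rz.K_B (iv x hK)))
    obtain ⟨f, hf, rfl⟩ := hd.ge (⟨xb, iv x hK⟩ : x ∈ Vb M π ⊓ Iv O _ (Kq M M₀))
    obtain ⟨f', hf', e⟩ := hd.ge (⟨m, iv _ hW⟩ : _ ∈ Vb M π ⊓ Iv O _ (Kq M M₀))
    have := (All.ih O M M₀ q k h π h3 hπ (-f') (neg_mem hf') f hf (by
      rw [map_neg, e, neg_add_cancel])).2
    rw [this, map_zero, map_zero]
  have pw : ∀ (n : ℕ), ∀ v ∈ XD1 O M (i + 1), v ∈ Iv O _ (Kq M M₀) →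
      W1 O _ M M₀ q (zD O M) k v ∈ Iv O _ (Kq M M₀) → π ^ n • v = 0 → v = 0 := by
    intro n
    induction n with
    | zero => exact fun v _ _ _ e => by rwa [pow_zero, one_smul] at e
    | succ n ih =>
      intro v hv hK hW e
      refine soc v hv hK hW (ih _ (Submodule.smul_mem _ _ hv) (Submodule.smul_mem _ _ hK) ?_ ?_)
      · rw [map_smul]
        exact Submodule.smul_mem _ _ hW
      · rw [smul_smul, ← pow_succ, e]
  obtain ⟨n, hn⟩ := (d4 i v (Submodule.mem_sup_left hv)).1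
  obtain ⟨m, c, hc⟩ := Tr.two_dvd_pow (P022D.Pur.nu_alg hπ)
  exact pw (m * n) v hv hK hW (by rw [pow_mul, hc, mul_pow, mul_comm, mul_smul, hn, smul_zero])

/-- invariant under the whole group at the primes of `l` -/
def Inv {M : ℕ} (l : List ℕ) (v : FT M (RD O)) : Prop := ∀ a ∈ l, v ∈ Iv O (RD O) (Kq M (M / a))

/-- the properties of the depletion at the primes of `l` -/
structure Dp (M i : ℕ) (z : O) (l : List ℕ) (D : Module.End O (FT M (RD O))) : Prop where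
  mem : ∀ v, Inv l v → v ∈ XD1 O M (i + 1) → D v ∈ XD1 O M (i + 1)
  inj : ∀ v, Inv l v → v ∈ XD1 O M (i + 1) → D v = 0 → v = 0
  rt : ∀ v, Inv l v → ∀ g ∈ Kq M l.prod, D (rt O _ g v) = rt O _ g (D v)
  sc : ∀ v, Inv l v → ∀ a, D (P022D.V.rt O _ (dg a a) v) = P022D.V.rt O _ (dg a a) (D v)
  tf : ∀ v, Inv l v → ∀ (p : ℕ) (u : (ZMod M)ˣ), (u : ZMod M) = p →
    D (Tf O _ i p u v) = Tf O _ i p u (D v)
  wh : ∀ v, Inv l v → ∀ B, (∀ x, tw (RD O) M z (l.prod * B * x) v = v) →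
    ∀ x, tw (RD O) M z (B * x) (D v) = D v

theorem Dp.sf {M i : ℕ} {z : O} {l : List ℕ} {D : Module.End O (FT M (RD O))} (H : Dp M i z l D)
    (v : FT M (RD O)) (hv : Inv l v) (p : ℕ) (u : (ZMod M)ˣ) :
    D (Sf O _ i p u v) = Sf O _ i p u (D v) := by
  rw [Sf_apply, Sf_apply, map_nsmul, H.sc v hv]

theorem Dp.whi {M i : ℕ} {z : O} {l : List ℕ} {D : Module.End O (FT M (RD O))} (H : Dp M i z l D)
    (v : FT M (RD O)) (hv : Inv l v)
    (hw : ∀ x : ℕ, z ^ (l.prod * x) • P022D.V.rt O _ (un ((l.prod * x : ℕ) : ZMod M)) v = v) :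
    D v ∈ Wh O _ M z := fun x => by
  have := H.wh v hv 1 (fun x => by rw [mul_one]; exact hw x) x
  rwa [one_mul] at this

theorem z_pow {M N : ℕ} {z : O} (hM : Odd M) (hN : N ∣ M) (hz : Co.j z = ze N 1) : z ^ M = 1 := by
  obtain ⟨c, rfl⟩ := hN
  refine Co.inj ?_
  rw [map_pow, hz, pow_mul, (ze_prim (Nat.pos_of_mul_pos_right hM.pos)).pow_eq_one, one_pow,
    map_one]

theorem one {π : O} (hπ : Unif π) {M N q : ℕ} {z : O} (h : Sp M (M / q) q) (h3 : 3 ≤ M / q)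
    (hq : q ∣ N) (hN : N ∣ M) (hz : Co.j z = ze N 1) (i : ℕ) : ∃ D, Dp M i z [q] D := by
  obtain ⟨⟨s, hs⟩, -, -, g4, -⟩ := grp M _ q h
  have hM : 3 ≤ M := h3.trans (Nat.div_le_self _ _)
  have z1 := z_pow h.odd hN hz
  have zd := ((root O M h.odd).2.2.2.2.2.1).pow
  have N0 : 0 < N := Nat.pos_of_dvd_of_pos hN h.odd.pos
  have hc : ∀ x, 0 < x → x < q → ∑ j ∈ range q, (z ^ (M / q * x)) ^ j = 0 := fun x x0 xq => by
    have := P022D.Pur.dom O
    have e := mul_geom_sum (z ^ (M / q * x)) q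
    rw [← pow_mul, mul_right_comm, ← h.eq, pow_mul z M, z1, one_pow, sub_self] at e
    refine (mul_eq_zero.1 e).resolve_left fun e1 => ?_
    have e2 := congrArg (Co.j : O →+* ℂ) (sub_eq_zero.1 e1)
    rw [map_pow, hz, map_one, (ze_prim N0).pow_eq_one_iff_dvd] at e2
    exact absurd (Nat.le_of_dvd x0 (h.cop.symm.dvd_of_dvd_mul_left (hq.trans e2))) (by omega)
  have qu : IsUnit (q : O) :=
    (root O q (Odd.of_dvd_nat h.odd ⟨M / q, by rw [mul_comm]; exact h.eq⟩)).2.2.2.1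
  have rX := (All.div O M h.odd hM).2.2.2.2 (i + 1)
  have hU : ∀ v : FT M (RD O), Inv [q] v → v ∈ Iv O _ (Uq M (M / q)) := fun v hv =>
    Rz.B_U (Rz.K_B (hv q List.mem_cons_self))
  have e : ∀ v, (pj (RD O) M (M / q) q z * (rt O (RD O) s).toLinearMap *
      W1 O _ M (M / q) q (zD O M) (i + 1)) v =
      pj (RD O) M (M / q) q z (rt O _ s (W1 O _ M (M / q) q (zD O M) (i + 1) v)) := fun _ => rfl
  have kr : ∀ v, Inv [q] v → ∀ g ∈ Kq M q, rt O _ s (W1 O _ M (M / q) q (zD O M) (i + 1)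
      (rt O _ g v)) = rt O _ g (rt O _ s (W1 O _ M (M / q) q (zD O M) (i + 1) v)) :=
    fun v hv g hg => by rw [Rz.W_rt wf1 h zd _ (hU v hv) hg, rt_rt, rt_rt, g4 s hs.1 g hg]
  refine ⟨pj (RD O) M (M / q) q z * (rt O (RD O) s).toLinearMap *
    W1 O _ M (M / q) q (zD O M) (i + 1), fun v hv m => ?_, fun v hv m h0 => ?_,
    fun v hv g hg => ?_, fun v hv a => ?_, fun v hv p u hu => ?_, fun v hv B hB x => ?_⟩
  · rw [e, pj_apply]
    exact Submodule.sum_mem _ fun x _ => Submodule.smul_mem _ _ (rX _ _ (rX _ _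
      ((All.wv O M _ q h hM).2.2 _ v ⟨m, hU v hv⟩)))
  · exact ihD hπ h h3 i (i + 1) m (hv q List.mem_cons_self) (ker_K h z1 hc qu hs
      (Rz.W_B wf1 h zd _ grp (Rz.K_B (hv q List.mem_cons_self))) h0)
  · rw [List.prod_singleton] at hg
    rw [e, e, kr v hv g hg]
    exact pj_rt g _ fun x => g4 _ (Gn.un_mem x) g hg
  · rw [e, e, Rz.W_dg wf1 h zd _ (hU v hv) ⟨0, by simp⟩, rt_sc]
    exact pj_rt _ _ fun x => (dg_center a _).symm
  · rw [e, e, Rz.W_Tf wf1 h zd _ (hU v hv) i hu, rt_Tf]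
    exact pj_comm _ _ fun x => (rt_Tf _ _ _ _ _).symm
  · rw [List.prod_singleton] at hB
    rw [e]
    refine pj_wh h z1 (fun y => ?_) x
    have m : (un ((q * B * y : ℕ) : ZMod M) : GM M) ∈ Kq M q := by
      rw [mul_assoc, Nat.cast_mul]
      exact Gn.un_mem _
    rw [tw_apply, ← kr v hv _ m, ← map_smul, ← map_smul, ← tw_apply, hB]

/-- **the depletion at the primes of `l`** -/
theorem dep {π : O} (hπ : Unif π) {M N : ℕ} {z : O} (hN : N ∣ M) (hz : Co.j z = ze N 1) (i : ℕ)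
    (l : List ℕ) (hn : l.Nodup) (hl : ∀ a ∈ l, Sp M (M / a) a ∧ 3 ≤ M / a ∧ a ∣ N) :
    ∃ D, Dp M i z l D := by
  induction l with
  | nil =>
    exact ⟨1, fun _ _ m => m, fun _ _ _ e => e, fun _ _ _ _ => rfl, fun _ _ _ => rfl,
      fun _ _ _ _ _ => rfl, fun v _ B hB x => by
        have := hB x
        rwa [List.prod_nil, one_mul] at this⟩
  | cons q l ih =>
    obtain ⟨n1, n2⟩ := List.nodup_cons.1 hn
    obtain ⟨h, h3, hq⟩ := hl q List.mem_cons_self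
    obtain ⟨D, H⟩ := ih n2 fun a ha => hl a (List.mem_cons_of_mem _ ha)
    obtain ⟨d, G⟩ := one hπ h h3 hq hN hz i
    have i1 : ∀ v : FT M (RD O), Inv (q :: l) v → Inv [q] v := fun v hv a ha =>
      hv a (List.mem_singleton.1 ha ▸ List.mem_cons_self)
    have r1 : ∀ v : FT M (RD O), Inv (q :: l) v → ∀ g ∈ Kq M q, d (rt O _ g v) = rt O _ g (d v) :=
      fun v hv g hg => G.rt v (i1 v hv) g (by rwa [List.prod_singleton])
    have i2 : ∀ v : FT M (RD O), Inv (q :: l) v → Inv l (d v) := fun v hv a ha =>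
      mem_Iv.2 fun g hg => by
        have sa := (hl a (List.mem_cons_of_mem _ ha)).1
        have qa : q ∣ M / a := ((Nat.coprime_primes h.prime sa.prime).2
          fun e => n1 (e ▸ ha)).dvd_of_dvd_mul_right (sa.eq ▸ P022D.Rep.dq h)
        rw [← r1 v hv g (P022D.Rep.Kq_mono qa hg),
          mem_Iv.1 (hv a (List.mem_cons_of_mem _ ha)) g hg]
    refine ⟨D * d, fun v hv m => H.mem _ (i2 v hv) (G.mem v (i1 v hv) m),
      fun v hv m e => G.inj v (i1 v hv) m (H.inj _ (i2 v hv) (G.mem v (i1 v hv) m) e),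
      fun v hv g hg => ?_, fun v hv a => ?_, fun v hv p u hu => ?_, fun v hv B hB => ?_⟩
    · rw [List.prod_cons] at hg
      rw [Module.End.mul_apply, Module.End.mul_apply,
        r1 v hv g (P022D.Rep.Kq_mono (dvd_mul_right _ _) hg),
        H.rt _ (i2 v hv) g (P022D.Rep.Kq_mono (dvd_mul_left _ _) hg)]
    · rw [Module.End.mul_apply, Module.End.mul_apply, G.sc v (i1 v hv), H.sc _ (i2 v hv)]
    · rw [Module.End.mul_apply, Module.End.mul_apply, G.tf v (i1 v hv) p u hu,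
        H.tf _ (i2 v hv) p u hu]
    · refine H.wh _ (i2 v hv) B (G.wh v (i1 v hv) (l.prod * B) fun x => ?_)
      have := hB x
      rwa [List.prod_cons, mul_assoc q, ← List.prod_singleton (x := q)] at this

section cyc

open Vale.Agent.P022E.Fm Vale.Agent.P022D.As Vale.Agent.P022E.As

variable {M N n r : ℕ} {q : Fin r → ℕ} {b : Fin r → (ZMod M)ˣ}

/-- **the field `cyc`** for vectors which are invariant at the primes of `l` and Whittaker at the
other primes of `N` -/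
theorem cyc_dep [IsDomain O] [IsDiscreteValuationRing O] {π : O} (hπ : Unif π)
    (A : P022E.Fm.Aux M N n q b) (h3 : 3 ≤ N) (h2 : ∀ j, ∃ z : ZMod (q j), z ^ 2 ^ n = 2) {i : ℕ}
    {z : O} (hz : Co.j z = ze N 1) (l : List ℕ) (hn : l.Nodup)
    (hl : ∀ a ∈ l, Sp M (M / a) a ∧ 3 ≤ M / a ∧ a ∣ N) (hp : l.prod ∣ N)
    {W : Type} [AddCommGroup W] [Module (Tg O) W]
    (ι : W →+ FT M (RD O)) (inj : Function.Injective ι) (mem : ∀ w, ι w ∈ XD1 O M (i + 1))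
    (iv : ∀ w, Inv l (ι w))
    (wh : ∀ w (x : ℕ), z ^ (l.prod * x) • rt O _ (un ((l.prod * x : ℕ) : ZMod M)) (ι w) = ι w)
    (inv : ∀ (j) (c : (ZMod M)ˣ), Cg M (M / q j) c 1 → ∀ w,
      rt O _ (dg (c ^ 2 ^ n) 1) (ι w) = ι w ∧ rt O _ (dg 1 (c ^ 2 ^ n)) (ι w) = ι w)
    (hc : ∀ (o : O) w, ι (cc o • w) = o • ι w)
    (hT : ∀ (p : ℕ) (u : (ZMod M)ˣ), p.Prime → p ≠ 2 → (u : ZMod M) = p →
      (∃ x : Tg O, P022E.Fm.Rp ι x (Tf O _ i p u)) ∧ ∃ x : Tg O, P022E.Fm.Rp ι x (Sf O _ i p u))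
    (τ : Fin r → GQ) (f f' : (ZMod M)ˣ →* GM M)
    (hf : (f = P022E.Fm.dgl M ∧ f' = P022E.Fm.dgr M) ∨ (f = P022E.Fm.dgr M ∧ f' = P022E.Fm.dgl M))
    (hy : ∀ j : Fin r, P022E.Fm.Rp ι (1 + yy j : Tg O) (P022E.Fm.rL O _ (f (b j))))
    (ht : ∀ j, P022E.Fm.Rp ι (tt (τ j) : Tg O)
      (P022E.Fm.rL O _ (f (b j)) + P022E.Fm.rL O _ (f' (b j)))) :
    ∃ χ : CharacterModule W, ∀ w : W, (∀ u : Tg O, χ (u • w) = 0) →
      (∏ j, (ee n (O := O) τ j - 1)) • w = 0 := by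
  obtain ⟨D, H⟩ := dep hπ ⟨_, A.eq⟩ hz i l hn hl
  have kq : ∀ (j) (a d : (ZMod M)ˣ), Cg M (M / q j) a 1 → Cg M (M / q j) d 1 →
      dg a d ∈ Kq M l.prod := fun j a d ha hd =>
    P022D.Rep.Kq_mono (hp.trans (A.sp j).2) (Gn.dg_mem ha hd)
  have kp : ∀ (j) (c : (ZMod M)ˣ), Cg M (M / q j) c 1 →
      Cg M (M / q j) ((c ^ 2 ^ n : (ZMod M)ˣ) : ZMod M) 1 := fun j c h =>
    (P022E.Fm.U1 M (M / q j)).pow_mem (x := c) h _
  have kf : ∀ j, f (b j) ∈ Kq M l.prod ∧ f' (b j) ∈ Kq M l.prod := fun j => by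
    rcases hf with ⟨rfl, rfl⟩ | ⟨rfl, rfl⟩
    exacts [⟨kq j _ 1 (A.one j) (Gn.cg_one _), kq j 1 _ (Gn.cg_one _) (A.one j)⟩,
      ⟨kq j 1 _ (Gn.cg_one _) (A.one j), kq j _ 1 (A.one j) (Gn.cg_one _)⟩]
  have e : ∀ w, (D.toAddMonoidHom.comp ι) w = D (ι w) := fun _ => rfl
  refine P022E.Fm.cyc_field (All.cyc O) (All.rat O) A h3 h2 hz (D.toAddMonoidHom.comp ι)
    ((injective_iff_map_eq_zero _).2 fun w h => inj ((H.inj _ (iv w) (mem w) h).trans
      (map_zero ι).symm))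
    (fun w => ⟨H.mem _ (iv w) (mem w), H.whi _ (iv w) (wh w)⟩) (fun j c h w => ⟨?_, ?_⟩)
    (fun o w => ?_) (fun p u p1 p2 p3 => ⟨?_, ?_⟩) τ f f' hf (fun j w => ?_) fun j w => ?_
  · rw [e, ← H.rt _ (iv w) _ (kq j _ 1 (kp j c h) (Gn.cg_one _)), (inv j c h w).1]
  · rw [e, ← H.rt _ (iv w) _ (kq j 1 _ (Gn.cg_one _) (kp j c h)), (inv j c h w).2]
  · rw [e, e, hc, map_smul]
  · obtain ⟨x, hx⟩ := (hT p u p1 p2 p3).1
    exact ⟨x, fun w => by rw [e, e, hx, H.tf _ (iv w) p u p3]⟩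
  · obtain ⟨x, hx⟩ := (hT p u p1 p2 p3).2
    exact ⟨x, fun w => by rw [e, e, hx, H.sf _ (iv w)]⟩
  · rw [e, e, hy, P022E.Fm.rL_apply, P022E.Fm.rL_apply, H.rt _ (iv w) _ (kf j).1]
  · rw [e, e, ht, LinearMap.add_apply, LinearMap.add_apply, map_add, P022E.Fm.rL_apply,
      P022E.Fm.rL_apply, P022E.Fm.rL_apply, P022E.Fm.rL_apply, H.rt _ (iv w) _ (kf j).1,
      H.rt _ (iv w) _ (kf j).2]

end cyc

end Vale.Agent.P022S.Dep
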