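import Vale.Agent.P022S.Wx.Defs
import Vale.Agent.P022S.Wx.Dep
import Vale.Agent.P022S.Fp.FmDia
import Vale.Agent.P022S.Fp.FmSb
import Vale.Agent.P022S.Fp.FmCls

/-!
# P022S, row CYX: cyclicity for the forms which are invariant at the auxiliary primes
-/

set_option linter.all false

noncomputable section

namespace Vale.Agent.P022S.Wx

open Vale.Agent.P022 Vale.Agent.P027M.M Vale.Agent.P022D.V Vale.Agent.P022E.V Vale.Agent.P022E.Fm
  Vale.Agent.P022D.As Vale.Agent.P022E.As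

variable {O F : Type} [CommRing O] [IsDomain O] [IsDiscreteValuationRing O] [Co O] [Field F]
  {U : Su O F} {X : Finset ℕ}

namespace Cyx

theorem ax_dvd (hX : Ux U X) : AX X ∣ U.N := by
  rw [Su.N, hX.ok.NC]
  exact (Finset.prod_dvd_prod_of_subset _ _ _ hX.sub).mul_left _

variable {r n M : ℕ} {q : Fin r → ℕ} {b : Fin r → (ZMod M)ˣ} {τ : Fin r → GQ}

theorem sp_x (hX : Ux U X) (A : P022E.Fm.Aux M U.N n q b) {a : ℕ} (ha : a ∈ X) :
    Sp M (M / a) a ∧ 3 ≤ M / a ∧ a ∣ U.N := by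
  have hU := hX.ok
  have s := (Sb.spCGs hU A ⟨a, hX.sub ha⟩).1
  refine ⟨s, ?_, (Finset.dvd_prod_of_mem _ ha).trans (ax_dvd hX)⟩
  obtain ⟨p, hp, ne⟩ := hU.C2 a
  have m := Finset.mem_union_right U.L.W hp
  have d : p ∣ M / a := Cyc.dvd_div s ((Di.dvd_of_memGs hU m).trans ⟨_, A.eq⟩)
    ((Nat.coprime_primes (hU.ok.pr p m).1 s.prime).2 ne)
  have h0 : 0 < M / a := Nat.pos_of_mul_pos_right (s.eq ▸ A.odd.pos)
  have h1 := Nat.le_of_dvd h0 d
  have h2 := (hU.ok.pr p m).1.two_le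
  have h3 := (hU.ok.pr p m).2
  omega

variable [hC : ∀ l : U.L.C, Fact l.1.Prime] [CharP F 2] {D : Dt U M n}
  {u : Fin r ⊕ Fin r → U.B M}

theorem cyc_of (hX : Ux U X) (V : Lv U r n M q b τ) (hD : U.Op D.t D.d) (hu : IsDia b u)
    {Y : Submodule (U.B M) (U.GG M)} (hY : ∀ v ∈ Y, (v : P022D.Fm.AM O M) ∈ Zx U X M n)
    (hZ : ∀ v ∈ Y, (v : P022D.Fm.AM O M) ∈ XD1 O M (U.i + 1)) :
    ∃ χ : CharacterModule (P022D.Fm.Mt (D.ev u) Y), ∀ w : P022D.Fm.Mt (D.ev u) Y,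
      (∀ p : Tg O, χ (p • w) = 0) → (∏ j, (ee n (O := O) τ j - 1)) • w = 0 := by
  have hU := hX.ok
  have A := V.auxGs hU
  have G := V.dmGs hU hD hu fun v h => (hY v h).1.1
  have e0 : X.toList.prod = AX X := Finset.prod_toList X
  refine Dep.cyc_dep hU.uni A (Di.three_leGs hU) V.two hU.z X.toList X.nodup_toList
    (fun a ha => sp_x hX A (Finset.mem_toList.1 ha)) (e0 ▸ ax_dvd hX) (em (D.ev u) Y) em_inj
    (fun w => hZ _ (show Y from w).2) (fun w a ha => ?_) (fun w x => ?_) G.inv (fun o w => ?_)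
    (fun p a p1 p2 p3 => ?_) τ (dgr M) (dgl M) (Or.inr ⟨rfl, rfl⟩) G.hy fun j => ?_
  · exact P022D.Fm.Rz.Iv_anti (P022D.Rep.Kq_mono (Nat.div_dvd_div_left
      ((ax_dvd hX).trans ⟨_, A.eq⟩) (Finset.dvd_prod_of_mem _ (Finset.mem_toList.1 ha))))
      (hY _ (show Y from w).2).2
  · rw [e0]
    exact (mem_WA U).1 (hY _ (show Y from w).2).1.2 x
  · rw [em_smul, D.ev_cc]
    rfl
  · obtain ⟨φ, hφ⟩ := H20.exists_isFrob p1
    have hp : ¬ p ∣ 2 * M := fun e => by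
      rcases p1.dvd_mul.1 e with e | e
      · exact p2 ((Nat.prime_dvd_prime_iff_eq p1 Nat.prime_two).1 e)
      · exact p1.coprime_iff_not_dvd.1 ((ZMod.isUnit_iff_coprime p M).1 (p3 ▸ a.isUnit)) e
    have e : P022D.Fm.uP (⟨p, p1, hp⟩ : PA M) = a := Units.ext p3.symm
    have k := fun w : P022D.Fm.Mt (D.ev u) Y =>
      (P022D.V.All.hkv O M U.i p a A.odd p1 p2 p3).2.1 _ (hZ _ (show Y from w).2)
    refine ⟨⟨tt φ, fun w => ?_⟩, dd φ, fun w => ?_⟩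
    · rw [em_smul, D.ev_tt, hD.frT ⟨p, p1, hp⟩ φ hφ, e]
      exact (k w).2.2.1
    · rw [em_smul, D.ev_dd, hD.frS ⟨p, p1, hp⟩ φ hφ, e]
      exact (k w).2.2.2
  · rw [add_comm]
    exact G.ht j

end Cyx

variable [CharP F 2] [hC : ∀ l : U.L.C, Fact l.1.Prime]

/-- **row CYX** -/
theorem cyxC (hX : Ux U X) : CYX U X := fun r n q P => by
  obtain ⟨χ, h⟩ := Cyx.cyc_of hX P.lv P.ok.op P.dia (Y := WxC X P.X (n + 1))
    (fun v h => P022D.Fm.mem_of_sub h.1.1)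
    fun v h => (clsCGs hX.ok r n q P v ⟨fun e he => (h.1.1 e he).1.1, h.1.2⟩).2.2.1
  refine ⟨χ, fun w hw => ?_⟩
  rw [pow_succ, mul_smul]
  exact (congrArg _ (h w hw)).trans (smul_zero _)

end Vale.Agent.P022S.Wx
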