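import Vale.Agent.P022S.Wx.Defs
import Vale.Agent.P022S.Fp.FmPrj

/-!
# P022S: row DVX
-/

set_option linter.all false

noncomputable section

namespace Vale.Agent.P022S.Wx

open Vale.Agent.P022 Vale.Agent.P022D.V Vale.Agent.P022E.V Vale.Agent.P022E.Fm
open Vale.Agent.P022D.W.Step (kl Dv)
open Vale.Agent.P022D.Fm (Mt AM rD HA)
open Vale.Agent.P022E.Fm.Pj (Hb chi chi_ud ud_mul cg_val pw_mod un0)

namespace D51

section gen

variable {O : Type} [CommRing O] [Co O] {M R : ℕ}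

theorem eg_cl (S : Set (GM M)) (χ : GM M → O) (h1 : χ 1 = 1)
    (hm : ∀ g ∈ Subgroup.closure S, ∀ h ∈ Subgroup.closure S, χ (g * h) = χ g * χ h)
    {v : AM O M} (hv : ∀ g ∈ S, rD O g v = χ g • v) :
    v ∈ Eg O (RD O) (Subgroup.closure S) χ := by
  intro g hg
  change rD O g v = χ g • v
  induction hg using Subgroup.closure_induction with
  | mem g hg => exact hv g hg
  | one => rw [rD_one, h1, one_smul]; rfl
  | mul g h hg hh a b =>
    rw [rD_mul, Module.End.mul_apply, b, map_smul, a, smul_smul, hm g hg h hh, mul_comm]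
  | inv g hg a =>
    have e : rD O g⁻¹ (rD O g v) = v := by
      rw [← Module.End.mul_apply, ← rD_mul, inv_mul_cancel, rD_one]; rfl
    rw [a, map_smul] at e
    conv_rhs => rw [← e, smul_smul, ← hm _ (inv_mem hg) _ hg, inv_mul_cancel, h1, one_smul]

omit [Co O] in
theorem chi_mul [NeZero R] {om : ℕ → O} {w : O} (hw : w ^ R = 1)
    (omm : ∀ x y, om (x * y) = om x * om y) (omp : ∀ x y, x ≡ y [MOD R] → om x = om y) :
    ∀ g ∈ Hb R R 1 0, ∀ h ∈ Hb R R 1 0, chi om w (g * h) = chi om w g * chi om w h := by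
  rintro _ ⟨x, A, D, h, rfl⟩ _ ⟨y, A', D', h', rfl⟩
  rw [ud_mul, chi_ud, chi_ud, chi_ud, mul_mul_mul_comm, ← omm, ← pow_add]
  refine congrArg₂ (· * ·) ?_ ?_
  · exact omp _ _ (cg_val dvd_rfl (by simpa using cg_refl _))
  · obtain ⟨t, ht⟩ := h.cg
    refine pw_mod hw (cg_val dvd_rfl ⟨y * t, ?_⟩)
    rw [ht, Nat.cast_add, ZMod.natCast_zmod_val, ZMod.natCast_zmod_val]
    ring

theorem pr_un (h : R ∣ M) (x : ℕ) : pr h (un (x : ZMod M)) = un (x : ZMod R) * dg 1 1 := by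
  rw [dg_one, mul_one]
  apply Units.ext
  ext i j
  fin_cases i <;> fin_cases j <;> simp [pr, un_coe, -ZMod.castHom_apply]

theorem pr_sc (h : R ∣ M) (a : (ZMod M)ˣ) : pr h (dg a a) =
    un 0 * dg (Units.map (ZMod.castHom h (ZMod R)).toMonoidHom a)
      (Units.map (ZMod.castHom h (ZMod R)).toMonoidHom a) := by
  rw [un0, one_mul, Wq.pr_dg]

theorem dp_sc (c : (ZMod R)ˣ) : P022E.Fm.Pj.Dp R R 1 0 c c :=
  ⟨c, 1, 1, ⟨c - 1, by simp⟩, cg_refl _, cg_refl _, by simp, by simp⟩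

theorem val_cast [NeZero M] [NeZero R] (h : R ∣ M) (x : ZMod M) :
    (ZMod.castHom h (ZMod R) x).val ≡ x.val [MOD R] := by
  conv_lhs => rw [← ZMod.natCast_zmod_val x, map_natCast, ZMod.val_natCast]
  exact Nat.mod_modEq _ _

theorem ex_b {A : ℕ} [NeZero R] (h : A.Coprime R) : ∃ b, R ∣ A * b + 1 := by
  refine ⟨(-((ZMod.unitOfCoprime A h)⁻¹ : (ZMod R)ˣ) : ZMod R).val, ?_⟩
  rw [← ZMod.natCast_eq_zero_iff, Nat.cast_add, Nat.cast_mul, ZMod.natCast_zmod_val, Nat.cast_one,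
    ← ZMod.coe_unitOfCoprime A h, mul_neg, Units.mul_inv, neg_add_cancel]

end gen

variable {O F : Type} [CommRing O] [IsLocalRing O] [Co O] [Field F] {U : Su O F} {X : Finset ℕ}

variable (U X) in
/-- the generators -/
def SS (M n : ℕ) : Set (GM M) :=
  {g | (∃ a : (ZMod M)ˣ, Cg M (M / U.NC) a 1 ∧ g = dg a a) ∨
    (∃ x : ℕ, g = un ((AX X * x : ℕ) : ZMod M)) ∨ g ∈ U.TQ M n ∨ g ∈ Kq M (M / AX X)}

theorem key (hX : Ux U X) {M : ℕ} (n : ℕ) (hM : Odd M) (hN : U.N ∣ M) :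
    ∃ (H : Subgroup (GM M)) (χ : GM M → O), χ 1 = 1 ∧
      (∀ g ∈ H, ∀ h ∈ H, χ (g * h) = χ g * χ h) ∧ Zx U X M n = Eg O (RD O) H χ := by
  have hU := hX.ok
  haveI : NeZero M := ⟨hM.pos.ne'⟩
  obtain ⟨R, eR⟩ : ∃ R, R = ∏ l ∈ U.L.C \ X, l := ⟨_, rfl⟩
  have omX := hX.omX
  rw [← eR] at omX
  have eC : U.NC = AX X * R := by rw [hU.NC, eR, AX, mul_comm, Finset.prod_sdiff hX.sub]
  have eN : U.N = AX X * R := by rw [Su.N, hU.NW1, one_mul, eC]
  have A0 : AX X ≠ 0 := left_ne_zero_of_mul (eN ▸ hU.Nne)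
  haveI : NeZero R := ⟨right_ne_zero_of_mul (eN ▸ hU.Nne)⟩
  have cop : (AX X).Coprime R := by
    rw [eR, AX]
    refine Nat.Coprime.prod_left fun a ha => Nat.Coprime.prod_right fun l hl => ?_
    obtain ⟨l1, l2⟩ := Finset.mem_sdiff.1 hl
    exact (Nat.coprime_primes (hU.prC (hX.sub ha)).1 (hU.prC l1).1).2 fun e => l2 (e ▸ ha)
  have RN : R ∣ U.N := eN ▸ dvd_mul_left _ _
  have hR : R ∣ M := RN.trans hN
  have RA : R ∣ M / AX X := Nat.dvd_div_of_mul_dvd (eN ▸ hN)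
  obtain ⟨b, c, hb⟩ := ex_b cop
  have zN := hU.zN
  rw [eN] at zN
  have hw : (U.z ^ (AX X * b)) ^ R = 1 := by
    rw [← pow_mul, mul_right_comm, pow_mul, zN, one_pow]
  have hz (x : ℕ) : U.z ^ (AX X * x) * (U.z ^ (AX X * b)) ^ (AX X * x) = 1 := by
    rw [← mul_pow, ← pow_succ', hb, ← pow_mul, mul_mul_mul_comm, mul_comm R, pow_mul, zN, one_pow]
  have o1 : U.om (1 : ZMod R).val = 1 :=
    (omX _ 1 (cg_val dvd_rfl (by simpa using cg_refl _))).trans hU.om1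
  have c1 : chi U.om (U.z ^ (AX X * b)) (1 : GM R) = 1 := by
    have := chi_ud U.om (U.z ^ (AX X * b)) (0 : ZMod R) 1 1
    rwa [un0, dg_one, mul_one, ZMod.val_zero, pow_zero, mul_one, Units.val_one, o1] at this
  have cs (a : (ZMod M)ˣ) : chi U.om (U.z ^ (AX X * b)) (pr hR (dg a a)) = U.om (a : ZMod M).val := by
    rw [pr_sc, chi_ud, ZMod.val_zero, pow_zero, mul_one]
    exact omX _ _ (val_cast hR _)
  have cu (x : ℕ) : chi U.om (U.z ^ (AX X * b)) (pr hR (un (x : ZMod M))) =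
      (U.z ^ (AX X * b)) ^ x := by
    rw [pr_un, chi_ud, Units.val_one, o1, one_mul]
    exact pw_mod hw (cg_val dvd_rfl (cg_refl _))
  have pT {g : GM M} (hg : g ∈ U.TQ M n) : pr hR g = 1 := by
    obtain ⟨a, d, ha, hd, rfl⟩ := hg
    exact (Wq.mem_Kq hR _).1 (Wq.dg_K (P022E.Fm.Pj.cgp (cg_dvd2 RN ha) _)
      (P022E.Fm.Pj.cgp (cg_dvd2 RN hd) _))
  have pK {g : GM M} (hg : g ∈ Kq M (M / AX X)) : pr hR g = 1 :=
    (Wq.mem_Kq hR _).1 (Kq_mono RA hg)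
  have le : Subgroup.closure (SS U X M n) ≤ (Hb R R 1 0).comap (pr hR) := by
    rw [Subgroup.closure_le]
    rintro g (⟨a, -, rfl⟩ | ⟨x, rfl⟩ | h | h)
    · exact ⟨_, _, _, dp_sc _, pr_sc hR a⟩
    · exact ⟨_, _, _, dp_sc _, pr_un hR _⟩
    · exact Subgroup.mem_comap.2 (by rw [pT h]; exact one_mem _)
    · exact Subgroup.mem_comap.2 (by rw [pK h]; exact one_mem _)
  have h1 : chi U.om (U.z ^ (AX X * b)) (pr hR 1) = 1 := by rw [map_one, c1]
  have hm : ∀ g ∈ Subgroup.closure (SS U X M n), ∀ h ∈ Subgroup.closure (SS U X M n),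
      chi U.om (U.z ^ (AX X * b)) (pr hR (g * h)) =
        chi U.om (U.z ^ (AX X * b)) (pr hR g) * chi U.om (U.z ^ (AX X * b)) (pr hR h) :=
    fun g hg h hh => by rw [map_mul]; exact chi_mul hw hU.omm omX _ (le hg) _ (le hh)
  refine ⟨Subgroup.closure (SS U X M n), fun g => chi U.om (U.z ^ (AX X * b)) (pr hR g), h1, hm, ?_⟩
  ext v
  refine ⟨fun h => eg_cl _ _ h1 hm ?_, fun h => ?_⟩
  · rintro g (⟨a, ha, rfl⟩ | ⟨x, rfl⟩ | hg | hg)
    · rw [cs]; exact mem_Ce.1 h.1.1.1.1 a ha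
    · have := (mem_WA U).1 h.1.2 x
      rw [cu]
      conv_rhs => rw [← this, smul_smul, mul_comm, hz, one_smul]
    · rw [pT hg, c1, one_smul]; exact P022D.V.mem_Iv.1 h.1.1.2 g hg
    · rw [pK hg, c1, one_smul]; exact P022D.V.mem_Iv.1 h.2 g hg
  · have k (g : GM M) (hg : g ∈ SS U X M n) :
        rD O g v = chi U.om (U.z ^ (AX X * b)) (pr hR g) • v := h g (Subgroup.subset_closure hg)
    have kA (x : ℕ) : U.z ^ (AX X * x) • rD O (un ((AX X * x : ℕ) : ZMod M)) v = v := by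
      rw [k _ (.inr (.inl ⟨x, rfl⟩)), cu, smul_smul, hz, one_smul]
    refine ⟨⟨⟨⟨mem_Ce.2 fun a ha => ?_, mem_WhP.2 fun x => ?_⟩, P022D.V.mem_Iv.2 fun g hg => ?_⟩,
      (mem_WA U).2 kA⟩, P022D.V.mem_Iv.2 fun g hg => ?_⟩
    · rw [k _ (.inl ⟨a, ha, rfl⟩), cs]
    · rw [eC, mul_assoc]; exact kA _
    · have := k g (.inr (.inr (.inl hg)))
      rwa [pT hg, c1, one_smul] at this
    · have := k g (.inr (.inr (.inr hg)))
      rwa [pK hg, c1, one_smul] at this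

end D51

variable {O F : Type} [CommRing O] [IsDomain O] [IsDiscreteValuationRing O] [P022D.Core.Coef O] [Co O]
  [Field F] {U : Su O F} {X : Finset ℕ}

/-- **row DVX** -/
theorem dvxC (hX : Ux U X) : DVX U X := fun M n L v hv => by
  have hU := hX.ok
  haveI : NeZero M := ⟨L.odd.pos.ne'⟩
  haveI := P022E.Fm.Pj.finq hU.uni
  have st := stb_Zx U X L.dvd hU.zN n
  obtain ⟨H, χ, h1, hm, e0⟩ := D51.key hX n L.odd L.dvd
  obtain ⟨u, hu, k, e⟩ := P022E.Fm.Pj.dvE L.odd L.three hU.uni (P022E.Fm.Pj.hn2 hU.uni) hU.uni.ne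
    H χ h1 hm v.2 (e0 ▸ (mem_sb st).1 hv)
  exact ⟨⟨u, hu⟩, (mem_sb st).2 (e0 ▸ k), Subtype.ext e⟩

end Vale.Agent.P022S.Wx
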