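import Vale.Agent.P022S.Wx.Defs
import Vale.Agent.P022S.Fp.FmFibZ

/-!
# P022S: rows FAMX and DSX
-/

set_option linter.all false

noncomputable section

namespace Vale.Agent.P022S.Wx.H40

open Vale.Agent.P022 Vale.Agent.P022D.V Vale.Agent.P022E.V Vale.Agent.P022E.Fm
open Vale.Agent.P022D.W.Step (kl mem_kl mem_kl1)
open Vale.Agent.P022D.Fm (Mt AM Lc)
open Vale.Agent.P022D.As (Tg cc tt dd dl Dq)

variable {O F : Type} [CommRing O] [IsLocalRing O] [Co O] [Field F] {U : Su O F} {X : Finset ℕ}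

theorem ax_dvd (hX : Ux U X) : AX X ∣ U.N := by
  rw [Su.N, hX.ok.NC]
  exact (Finset.prod_dvd_prod_of_subset _ _ _ hX.sub).mul_left _

theorem div_eq {A N M : ℕ} (h : A ∣ N) (L : Lc N M) : M / A = N / A * (M / N) := by
  obtain ⟨Q, hQ⟩ := L.dvd
  obtain ⟨R, hR⟩ := h
  have h0 : N ≠ 0 := L.self.ne
  have h1 : A ≠ 0 := fun e => h0 (by rw [hR, e, zero_mul])
  have e1 : M / N = Q := by rw [hQ, Nat.mul_div_cancel_left _ (Nat.pos_of_ne_zero h0)]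
  have e2 : N / A = R := by rw [hR, Nat.mul_div_cancel_left _ (Nat.pos_of_ne_zero h1)]
  rw [e1, e2, hQ, hR, mul_assoc, Nat.mul_div_cancel_left _ (Nat.pos_of_ne_zero h1)]

theorem kq {A M₁ M₂ : ℕ} (hA : A ∣ U.N) {L₁ : Lc U.N M₁} {L₂ : Lc U.N M₂}
    {R : Submodule O (AM O M₁ × AM O M₂)} (C : Cr U L₁ L₂ R) {v : AM O M₁} {w : AM O M₂}
    (h : (v, w) ∈ R) (hv : v ∈ Iv O (RD O) (Kq M₁ (M₁ / A))) :
    w ∈ Iv O (RD O) (Kq M₂ (M₂ / A)) := by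
  refine mem_Iv.2 fun g hg => ?_
  rw [div_eq hA L₂] at hg
  have hK : U.N / A ∣ U.N := Nat.div_dvd_of_dvd hA
  have h1 : pr L₂.dvd g ∈ Kq U.N (U.N / A) := by
    rw [Wq.mem_Kq hK, P022D.Fm.pr_pr, ← Wq.mem_Kq]
    exact P022D.Fm.kq_dvd (Dvd.intro _ rfl) hg
  obtain ⟨k, a, b⟩ := L₁.lift hK h1
  have e := C.gp k (P022D.Fm.kq_dvd (Dvd.intro_left _ rfl) a) g
    (P022D.Fm.kq_dvd (Dvd.intro_left _ rfl) hg) b v w h
  rw [mem_Iv.1 hv k (by rw [div_eq hA L₁]; exact a)] at e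
  exact C.eq e h

variable [CharP F 2] [hC : ∀ l : U.L.C, Fact l.1.Prime]

theorem famxC (hX : Ux U X) : FAMX U X := by
  intro j M₁ M₂ n₁ n₂ L₁ L₂ R C X₁ X₂ a b v w h hv
  haveI : NeZero M₂ := ⟨L₂.odd.pos.ne'⟩
  have c : (v : AM O M₁) ∈ Zx U X M₁ n₁ := P022D.Fm.mem_of_sub hv.1.1
  refine mem_kl1.2 ⟨⟨(mem_sb (stb_Zx U X L₂.dvd hX.ok.zN n₂)).2 ⟨⟨C.zp hX.ok.omp h c.1.1,
    (mem_WA U).2 fun x => C.un _ _ h ((mem_WA U).1 c.1.2 x)⟩, kq (ax_dvd hX) C h c.2⟩,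
    C.jw a b h hv.1.2⟩, C.zero (Cr.alg _ h) (mem_kl1.1 hv).2⟩

theorem wx_le {M n : ℕ} (D : Dt U M n) : Wx X D ≤ D.Z :=
  fun _ h => ⟨fun e he => (h.1 e he).1.1, h.2⟩

theorem dsxC (hX : Ux U X) (hG : GOP U) (hD : DIA U) (hK : CLS U) : DSX U X := by
  classical
  intro P0 r n q P φ hφ j _ w h1 h2
  obtain ⟨β, -, -, c⟩ := Fb.coreGs hX.ok (fun L => gg_iflGs hX.ok hG L) chain (P022S.newdS O)
    (P022S.gtS O) (famxC hX j) P0 P φ hφ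
  have e : ∀ {r n : ℕ} {q : Fin r → ℕ} (P : Lq U r n q),
      P.ev (cc U.ϖ ^ j) = algebraMap O _ (U.ϖ ^ j) := fun P => by
    rw [map_pow, map_pow]
    exact congrArg (· ^ j) (Fb.ev_c _ _ _)
  have hw : w.1 ∈ WxC X P.X j := mem_kl1.2 ⟨w.2.1, e P ▸ congrArg Subtype.val h1⟩
  let w' : Mt P.ev (WxC X P.X j) := ⟨w.1, hw⟩
  obtain ⟨f, hf⟩ := c w' ((Fb.fix_iff hD hK P ((P022D.W.Step.kl_le _ _).trans (wx_le _)) w).1 h2)
  let g : Finset (Fin r) → Mt P0.ev (Wx X P0.X) := fun s => ⟨(f s).1, (f s).2.1⟩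
  refine ⟨Finset.univ.image g, fun v hv => ?_, fun p hp => ?_⟩
  · obtain ⟨s, -, rfl⟩ := Finset.mem_image.1 hv
    exact Subtype.ext ((congrArg (· • (f s).1) (e P0)).trans (mem_kl1.1 (f s).2).2)
  · have h3 : p • f = 0 := funext fun s => Subtype.ext
      (congrArg (fun x : Mt P0.ev (Wx X P0.X) => x.1)
        (hp _ (Finset.mem_image_of_mem g (Finset.mem_univ s))))
    have h4 := β.map_smul p f
    rw [h3, map_zero, hf, smul_smul] at h4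
    have h5 : (p * Dq q φ ^ 3 : Tg O) • w = 0 :=
      Subtype.ext (congrArg (fun x : Mt P.ev (WxC X P.X j) => x.1) h4).symm
    rw [pow_add _ 2 3, mul_assoc, mul_smul, mul_comm, h5, smul_zero]

end Vale.Agent.P022S.Wx.H40
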