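import Vale.Agent.P022S.Wx.Defs
import Vale.Agent.P022S.Fp.Dm
import Vale.Agent.P022S.Fp.FmDic
import Vale.Agent.P022S.Fp.FmGmr
import Vale.Agent.P022S.Fp.FmHc
import Vale.Agent.P022S.Fp.FmCls
import Vale.Agent.P022S.Fp.FmDia
import Vale.Agent.P022S.Fp.FmBasic
import Vale.Agent.P022E.Fm.Cen
import Vale.Agent.P022E.Fm.Ac0

/-!
# P022S: the forms which are invariant at `X` are unramified at `X`
-/

set_option linter.all false

noncomputable section

namespace Vale.Agent.P022S.Wx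

open Vale.Agent.P022 Vale.Agent.P022D.V Vale.Agent.P022E.V Vale.Agent.P022E.Fm
open Vale.Agent.P022D.Fm (Mt AM rD HA)
open Vale.Agent.P022D.As (Tg cc tt dd)
open Vale.Agent.P022E.As (Gm)
open Vale.Agent.P022S.Mod (Dm)
open Vale.Agent.P022G (subL)

variable {O F : Type} [CommRing O] [IsLocalRing O] [Co O] [Field F] [CharP F 2] {U : Su O F}
  {X : Finset ℕ} [hC : ∀ l : U.L.C, Fact l.1.Prime]

/-- **row GMX** from the rows `GMR` and `LQ` -/
theorem gmx_of (hX : Ux U X) (g : GMR U) (hL : LQ U) : GMX U X := by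
  intro r n q P Y hY hI
  have hU := hX.ok
  have hm := hL.1 _ _ _ _ _ _ P.lv
  have ho := P.ok.op
  haveI : NeZero P.M := ⟨hm.odd.pos.ne'⟩
  refine ⟨fun w => ?_, fun w => ?_⟩
  · have h := g r n q P Y hY w
    refine ⟨h.fin, h.nil0, h.nilt, h.nild, h.nily, h.t1, h.tc, h.tm, h.d1, h.dm, h.opn,
      fun l hp hT hQ Q h1 h2 s hs x => ?_, h.clt, fun x hx => h.cld x ?_, h.yz⟩
    · by_cases hl : l ∈ X
      · exact Gmr.sub_tor w (by
          rw [Gmr.ev_t, Gmr.ev_t]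
          exact ho.ur _ l (Dic.spGs hU hm (hX.sub hl)) s ⟨Q, h1, h2, hs⟩ _
            (hI _ (Gmr.vl_mem w) l hl) x)
      · exact h.unr l hp (fun a => hT (Finset.mem_sdiff.2 ⟨a, hl⟩)) hQ Q h1 h2 s hs x
    · rcases hx with a | a | ⟨l, a, e⟩ | a
      · exact Or.inl a
      · exact Or.inr (Or.inl a)
      · refine Or.inr (Or.inr (Or.inl ⟨l, ?_, e⟩))
        rcases Finset.mem_union.1 a with a | a
        · exact Finset.mem_union_left _ a
        · exact Finset.mem_union_right _ (Finset.mem_sdiff.1 a).1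
      · exact Or.inr (Or.inr (Or.inr a))
  · have h := dmS hU P Y w
    refine ⟨h.1, fun l hp hT hQ Q h1 h2 s hs => ?_⟩
    by_cases hl : l ∈ X
    · have lc := hX.sub hl
      obtain ⟨-, -, h3, -, h5⟩ := Dic.levGs hU hm lc
      haveI : NeZero (P.M / l) :=
        ⟨(Nat.div_pos (Nat.le_of_dvd hm.odd.pos h5) hp.pos).ne'⟩
      have c := Cen.cg_of (P022E.Fm.cyc_inert_mod (m := P.M) (m' := P.M / l)
        (Nat.div_dvd_of_dvd h5) hp h3 h1 h2 hs)
      rw [Nat.cast_one] at c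
      refine Gmr.vl_inj ?_
      rw [Gmr.vl_smul, Gmr.ev_d]
      refine Subtype.ext ?_
      rw [ho.cn_d_inert hp (hU.ok.pr l (Finset.mem_union_right _ lc)).2 ⟨Q, h1, h2, hs⟩]
      exact P022D.V.Cyc.mem_Iv.1 (hI _ (Gmr.vl_mem w) l hl) _ (Ac.dg_Kq c c)
    · exact h.2 l hp (fun a => hT (Finset.mem_sdiff.2 ⟨a, hl⟩)) hQ Q h1 h2 s hs

/-- **row GMX** -/
theorem gmxC (hX : Ux U X) : GMX U X :=
  gmx_of hX (gmrCGs hX.ok (hcCGs hX.ok) (lqCGs hX.ok) (clsCGs hX.ok) (diaCGs hX.ok)) (lqCGs hX.ok)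

end Vale.Agent.P022S.Wx
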