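import Vale.Agent.P022S.G.Gal
import Vale.Agent.P022S.Gt.Ops
import Vale.Agent.P022E.Top.Core
import Vale.Agent.P022D.V.Clad
import Vale.Agent.P022D.V.Cla2
import Vale.Agent.P022D.V.Desc
import Vale.Agent.P022D.V.All0
import Vale.Agent.P022D.V.Form

/-!
# P022S: from the output of the patching argument to limits of eigenvalues of a smaller level
-/

set_option linter.all false

open Matrix IsLocalRing

noncomputable section

namespace Vale.Agent.P022S.OutX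

open Vale.Agent.P022 Vale.Agent.P022D.V Vale.Agent.P022D.V.Cd
open Vale.Agent.P022D.G (Wd wT wS sg)
open Vale.Agent.P022D.Top (Ob mem_Ob max_Ob dvd_Ob LimR sys pow_Ob)
open Vale.Agent.P022D.As (Tg tt dd ev0)
open Vale.Agent.P022E.As (Out2)
open Vale.Agent.P022E.Loc (Pl)
open Vale.Agent.P027M.M (ze)
open Vale.Agent.P022S.Gt (Dsc Fq)

section abs

variable {N : ℕ} [NeZero N] {O V : Type} [CommRing O] [AddCommGroup V] [Module O V]
  (ρ : Wd N →+* Module.End O V)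

/-- the discrete part -/
def DS : Submodule O V where
  carrier := {v | ∃ (K : Finset ℕ) (s : ℕ), (∀ i ∈ K, 1 ≤ i) ∧ 2 ^ s • v = 0 ∧
    ∀ Q, (∀ i ∈ K, sg N i Q = 0) → ρ Q v = 0}
  zero_mem' := ⟨∅, 0, by simp, by simp, fun Q _ => map_zero _⟩
  add_mem' := by
    rintro a b ⟨K, s, a1, a2, a3⟩ ⟨K', s', b1, b2, b3⟩
    refine ⟨K ∪ K', s + s', fun i hi => (Finset.mem_union.1 hi).elim (a1 i) (b1 i), ?_,
      fun Q h => ?_⟩
    · rw [smul_add, pow_add, mul_smul, mul_smul, b2, smul_comm, a2, smul_zero, smul_zero, add_zero]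
    · rw [map_add, a3 Q fun i hi => h i (Finset.mem_union_left _ hi),
        b3 Q fun i hi => h i (Finset.mem_union_right _ hi), add_zero]
  smul_mem' := by
    rintro c a ⟨K, s, a1, a2, a3⟩
    exact ⟨K, s, a1, by rw [smul_comm, a2, smul_zero], fun Q h => by
      rw [map_smul, a3 Q h, smul_zero]⟩

theorem DS_st (P : Wd N) : ∀ v ∈ DS ρ, ρ P v ∈ DS ρ := by
  rintro v ⟨K, s, a1, a2, a3⟩
  refine ⟨K, s, a1, by rw [← map_nsmul, a2, map_zero], fun Q h => ?_⟩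
  rw [← Module.End.mul_apply, ← map_mul]
  exact a3 _ fun i hi => by rw [map_mul, h i hi, zero_mul]

/-- the action on the discrete part -/
def aS : Wd N →+* Module.End O (DS ρ) where
  toFun P := (ρ P).restrict (DS_st ρ P)
  map_one' := LinearMap.ext fun v => Subtype.ext (by simp)
  map_mul' P Q := LinearMap.ext fun v => Subtype.ext (by simp)
  map_zero' := LinearMap.ext fun v => Subtype.ext (by simp)
  map_add' P Q := LinearMap.ext fun v => Subtype.ext (by simp)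

theorem dsc : Dsc (aS ρ) := ⟨fun v => by
  obtain ⟨K, s, a1, a2, a3⟩ := v.2
  exact ⟨K, s, a1, Subtype.ext a2, fun Q h => Subtype.ext (a3 Q h)⟩⟩

end abs

section forms

variable {O : Type} [CommRing O] {M R : ℕ} [NeZero M] [NeZero R] (h : R ∣ M)

theorem eg_eq {S : Type} [CommRing S] [Algebra O S] {z : O} (hz : z ^ R = 1) :
    Eg O S ((HB R R).comap (pr h) : Subgroup (GM M)) (fun g => ch z (pr h g)) =
      Wh O S M z ⊓ Iv O S (Kq M R) := by
  have e : ∀ (x : ℕ), z ^ x * z ^ (-(x : ZMod R)).val = 1 := fun x => by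
    rw [← pow_add, pw_val hz hz (a := 0) ⟨0, by simp⟩, ZMod.val_zero, pow_zero]
  have u : ∀ x : ℕ, pr h (un (x : ZMod M)) = un (x : ZMod R) := fun x => by
    rw [Ds.pr_un, map_natCast]
  apply le_antisymm
  · intro w hw
    refine ⟨fun x => ?_, fun g hg => ?_⟩
    · rw [hw (un (x : ZMod M)) (by
        change pr h _ ∈ HB R R
        rw [u]
        exact ⟨by simp [un_coe], ⟨0, by simp [un_coe]⟩, ⟨0, by simp [un_coe]⟩⟩), smul_smul]
      beta_reduce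
      rw [u]
      exact (congrArg (· • w) (e x)).trans (one_smul _ _)
    · have h1 := (Ds.mem_Kq h).1 hg
      rw [hw g (by change pr h g ∈ HB R R; rw [h1]; exact one_mem _)]
      beta_reduce
      rw [h1]
      simp [ch]
  · rintro w ⟨a, b⟩ g ⟨g1, ⟨y, g2⟩, ⟨y', g3⟩⟩
    obtain ⟨x, hx⟩ : ∃ x : ℕ, (x : ZMod R) = pr h g 0 1 := ⟨_, ZMod.natCast_zmod_val _⟩
    rw [ZMod.natCast_self, zero_mul, add_zero] at g2 g3
    have e1 : pr h g = un (x : ZMod R) := Units.ext (by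
      ext i j
      fin_cases i <;> fin_cases j
      · exact g2
      · exact hx.symm
      · exact g1
      · exact g3)
    have e2 : (un (x : ZMod M))⁻¹ * g ∈ Kq M R :=
      (Ds.mem_Kq h).2 (by rw [map_mul, map_inv, u, e1, inv_mul_cancel])
    beta_reduce
    rw [ch, ← hx]
    conv_lhs => rw [← mul_inv_cancel_left (un (x : ZMod M)) g, ← Tr.rt_rt, b _ e2, one_smul,
      ← one_smul O (rt O S _ w), ← e x, mul_comm, mul_smul, a x]

variable [Co O]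

/-- descent to a level which may be one -/
theorem down (hM : Odd M) (h3 : 3 ≤ M) {z : O} (hz : Co.j z = ze R 1) [NeZero (R ^ 2)]
    (u : PA (R ^ 2) → (ZMod R)ˣ) (hu : ∀ ℓ, (u ℓ : ZMod R) = ℓ.1) (i : ℕ) {v : FT M (RD O)}
    (hv : v ∈ XD O M i) (hW : v ∈ Wh O _ M z) (hK : v ∈ Iv O _ (Kq M R)) :
    ∃ v0 : DS (wd O (RD O) i u 1).toRingHom, ifl O _ h v0 = v := by
  have z1 : z ^ R = 1 := Co.inj (by
    have : (R : ℂ) ≠ 0 := by exact_mod_cast NeZero.ne R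
    rw [map_pow, hz, map_one, P027M.M.ze, ← Complex.exp_nat_mul, ← Complex.exp_two_pi_mul_I]
    congr 1
    push_cast
    field_simp)
  have oR : Odd R := hM.of_dvd_nat h
  have hL : Lev R R 1 R (R ^ 2) u 1 :=
    ⟨oR, (mul_one R).symm, Nat.coprime_one_right R, (mul_one _).symm, dvd_rfl, dvd_rfl, by
      rw [Nat.div_self oR.pos]; exact Nat.coprime_one_right R, hu, fun ℓ => ⟨0, by simp⟩,
      fun ℓ => ⟨1 - (ℓ.1 : ZMod R), by simp⟩⟩
  have hE : v ∈ Eg O _ ((HB R R).comap (pr h) : Subgroup (GM M)) (fun g => ch z (pr h g)) :=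
    (eg_eq h z1).ge ⟨hW, hK⟩
  obtain ⟨p1, -, p3, p4, -⟩ := All.div O M hM h3
  obtain ⟨n, a⟩ := (p4 i v hv).1
  have h0 := Dv.two_pow_ne (O := O) n
  obtain ⟨x, c, rfl⟩ := ((p3 i _ h0).2 v).1 ⟨hv, a⟩
  obtain ⟨t, ht, -⟩ := Tr.exists_s h0 0
  obtain ⟨k, a1, a2, w, ⟨c1, d⟩, rfl⟩ := (lift O M (i + 1) (t + 2 + 1) _ hM h3 h0
    ((HB R R).comap (pr h)) (fun g => ch z (pr h g)) (by simp [ch]) (fun g hg g' hg' => by
      rw [map_mul]; exact ch_mul z1 z1 _ hg _ hg')).1 x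
    ⟨c.1, fun g hg => p1 _ h0 (by rw [Dv.ml_rt, hE g hg, map_smul])⟩
  obtain ⟨j, rfl⟩ : ∃ j, k = j + 1 := ⟨k - 1, by omega⟩
  replace a1 := Nat.ModEq.add_right_cancel' 1 a1
  rw [eg_eq h z1] at d
  obtain ⟨w0, ⟨b1, b2⟩, rfl⟩ := Ds.L2_ex h c1 d.2
  have b3 : ∀ x : ℕ, z ^ x • rt O _ (un (x : ZMod R)) w0 = w0 := fun x => Ds.ifl_inj (S := O) h (by
    have e := d.1 x
    rwa [Ds.ifl_rt, Ds.pr_un, map_natCast, ← map_smul] at e)
  have b4 : ∀ {φ : FT R (AA O) →ₗ[O] FT R (AA O)}, Nt φ → φ w0 ∈ Wh O _ R z := fun {φ} n x => by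
    rw [← n.r, ← map_smul, b3]
  have b5 : ∀ w : FT R (AA O), w ∈ Iv O _ (Bq R R) := fun w g hg => by
    rw [P022D.Fm.Out.Bq_self hg, map_one, one_smul]; rfl
  have e : ifl O _ h (ml O R (dv ((2 : O) ^ n)) (red R _ w0)) =
      ml O M (dv ((2 : O) ^ n)) (red M _ (ifl O _ h w0)) := by rw [Ds.ifl_red, Ds.ifl_ml]
  refine ⟨⟨_, {j, j + 1}, n, by simp; omega, Ds.ifl_inj (S := O) h ?_, fun Q hQ => ?_⟩, e⟩
  · rw [map_nsmul, e, map_zero, ← Nat.cast_smul_eq_nsmul O, Nat.cast_pow, Nat.cast_ofNat]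
    exact a
  · have k0 : ∀ m ∈ ({j, j + 1} : Finset ℕ), P022D.G.Kil (R ^ 2) (R ^ 2) R {m} Q :=
      fun m hm i hi f _ => by rw [hQ i (Finset.mem_singleton.1 hi ▸ hm), LinearMap.zero_apply]
    change wd O (RD O) i u 1 Q _ = 0
    rw [← wd_ml, ← wd_red u 1 ht a1, wd_L2 u 1 Q
      (cla O R R 1 R _ u 1 z j hL hz Q (k0 _ (by simp)) _ ⟨⟨b1, b4 (nt_add _)⟩, b5 _⟩)
      (cla O R R 1 R _ u 1 z (j + 1) hL hz Q (k0 _ (by simp)) _ ⟨⟨b2, b4 (nt_sub _)⟩, b5 _⟩),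
      map_zero, map_zero]

end forms

theorem tr_pow {A : Type} [CommRing A] (X : Matrix (Fin 2) (Fin 2) A) (k : ℕ) :
    (X ^ (k + 2)).trace = X.trace * (X ^ (k + 1)).trace - X.det * (X ^ k).trace := by
  rw [pow_succ, pow_succ]
  generalize X ^ k = Y
  simp only [Matrix.trace_fin_two, Matrix.det_fin_two, Matrix.mul_apply, Fin.sum_univ_two]
  ring

/-- **OUT** for vectors which come from the level `R` -/
theorem limX {E : Type} [NontriviallyNormedField E] [IsUltrametricDist E]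
    [NormedAlgebra ℚ_[2] E] [FiniteDimensional ℚ_[2] E] [Co (Ob E)]
    {r : GQ →* GL (Fin 2) E} {L : Pl (Ob E)}
    (htr : ∀ g, ((L.r g).trace : E) = (r g : Matrix (Fin 2) (Fin 2) E).trace)
    (hdt : ∀ g, ((L.r g).det : E) = (r g : Matrix (Fin 2) (Fin 2) E).det)
    (hc : ∀ k : ℕ, IsOpen {g : GQ | (L.r g).map (Ideal.Quotient.mk (maximalIdeal (Ob E) ^ k)) = 1})
    {M R N' i : ℕ} [NeZero N'] (hM : Odd M) (h3 : 3 ≤ M) (hR : R ∣ M) (hN : R ^ 2 ∣ N') {z : Ob E}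
    (hz : Co.j z = ze R 1) {W : Type} [AddCommGroup W] [Module (Tg (Ob E)) W]
    (ι : W →+ FT M (RD (Ob E))) (hι : Function.Injective ι)
    (hX : ∀ w, ι w ∈ XD (Ob E) M i) (hW : ∀ w, ι w ∈ Wh (Ob E) _ M z)
    (hK : ∀ w, ι w ∈ Iv (Ob E) _ (Kq M R))
    (hT : ∀ (p : ℕ) (u : (ZMod M)ˣ) φ, p.Prime → p ≠ 2 → (u : ZMod M) = p → IsFrob p φ →
      ∀ w, ι ((tt φ : Tg (Ob E)) • w) = T2 (Ob E) _ i p u (ι w))
    (hS : ∀ (p : ℕ) (u : (ZMod M)ˣ) φ, p.Prime → p ≠ 2 → (u : ZMod M) = p → IsFrob p φ →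
      ∀ w, ι ((dd φ : Tg (Ob E)) • w) = S2 (Ob E) _ i p u (ι w))
    {ϖ : Ob E} (hϖ : Irreducible ϖ) (h : Out2 ϖ L W) : LimR N' r := by
  haveI : NeZero M := ⟨hM.pos.ne'⟩
  have oR : Odd R := hM.of_dvd_nat hR
  haveI : NeZero R := ⟨oR.pos.ne'⟩
  haveI : NeZero (R ^ 2) := ⟨pow_ne_zero _ oR.pos.ne'⟩
  refine P022D.Fm.Out.raise hN fun φ hφ ε hε => ?_
  classical
  have hcp : ∀ ℓ : PA (R ^ 2), Nat.Coprime ℓ.1 R := fun ℓ =>
    Nat.Coprime.coprime_dvd_right (dvd_pow_self R two_ne_zero) ℓ.coprime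
  let u : PA (R ^ 2) → (ZMod R)ˣ := fun ℓ => ZMod.unitOfCoprime ℓ.1 (hcp ℓ)
  have hu : ∀ ℓ, (u ℓ : ZMod R) = ℓ.1 := fun ℓ => ZMod.coe_unitOfCoprime _ _
  have hn : ‖(ϖ : E)‖ < 1 := max_Ob.1 hϖ.not_isUnit
  obtain ⟨j, hj⟩ := exists_pow_lt_of_lt_one hε hn
  obtain ⟨s, hs⟩ := h j
  choose v0 hv using fun w : W => down hR hM h3 hz u hu i (hX w) (hW w) (hK w)
  obtain ⟨B, _, β, fq⟩ := (dsc (wd (Ob E) (RD (Ob E)) i u 1).toRingHom).fq (s.image v0)
  obtain ⟨K, hK1, hK2⟩ := fq.kil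
  obtain ⟨m, hm⟩ := fq.two
  obtain ⟨t, d, ps⟩ := Bex.gal2s _ oR.pow K hK1 B m hm β hK2
  let I : Ideal (Ob E) := maximalIdeal (Ob E) ^ j
  let π := Ideal.Quotient.mk I
  let Rl : Tg (Ob E) → Wd (R ^ 2) → Prop := fun p y => ∀ (w : W) (v : FT R (RD (Ob E))),
    ι w = ifl (Ob E) _ hR v → ι (p • w) = ifl (Ob E) _ hR (wd (Ob E) _ i u 1 y v)
  let Gd : B → Ob E → Prop := fun b c => ∃ p y, Rl p y ∧ β y = b ∧ π (ev0 L.r p) = π c
  have gI : ∀ n : ℤ, Gd n n := fun n => ⟨n, n, fun w v e => by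
    rw [Int.cast_smul_eq_zsmul, map_zsmul, e, map_intCast, Module.End.intCast_apply, map_zsmul],
    map_intCast _ _, by rw [map_intCast]⟩
  have gA : ∀ {a b c e}, Gd a b → Gd c e → Gd (a + c) (b + e) := by
    rintro _ b _ e ⟨p, y, a1, rfl, a2⟩ ⟨p', y', b1, rfl, b2⟩
    exact ⟨p + p', y + y', fun w v e => by
      rw [add_smul, map_add, a1 w v e, b1 w v e, map_add, LinearMap.add_apply, map_add],
      map_add _ _ _, by rw [map_add, map_add, map_add, a2, b2]⟩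
  have gM : ∀ {a b c e}, Gd a b → Gd c e → Gd (a * c) (b * e) := by
    rintro _ b _ e ⟨p, y, a1, rfl, a2⟩ ⟨p', y', b1, rfl, b2⟩
    exact ⟨p * p', y * y', fun w v e => by
      rw [mul_smul, a1 _ _ (b1 w v e), map_mul, Module.End.mul_apply],
      map_mul _ _ _, by rw [map_mul, map_mul, map_mul, a2, b2]⟩
  have gS : ∀ {a b c e}, Gd a b → Gd c e → Gd (a - c) (b - e) := fun {a b c e} h1 h2 => by
    have := gA h1 (gM (gI (-1)) h2)
    simpa [sub_eq_add_neg] using this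
  have gg : ∀ g, Gd (t g) (L.r g).trace ∧ Gd (d g) (L.r g).det := by
    intro g
    obtain ⟨V, v1, v2, -, v3⟩ := ps.opn
    let f := π.mapMatrix.toMonoidHom.comp L.r
    haveI := v1
    obtain ⟨l, ψ, k, l1, l2, l3, l4⟩ := P022D.G.frob (V ⊓ f.ker) inferInstance
      (v2.inter (hc j)) g (2 * M).primeFactors
    have l5 : ¬ l ∣ 2 * M := fun e =>
      l2 (Nat.mem_primeFactors.2 ⟨l1, e, mul_ne_zero two_ne_zero hM.pos.ne'⟩)
    have l6 : l ≠ 2 := fun e => l5 (e ▸ dvd_mul_right _ _)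
    let ℓ : PA (R ^ 2) := ⟨l, l1, fun e => l5 ((l1.dvd_mul.1 e).elim (·.mul_right _)
      fun e => ((l1.dvd_of_dvd_pow e).trans hR).mul_left _)⟩
    let uM : (ZMod M)ˣ := ZMod.unitOfCoprime l
      ((Nat.Prime.coprime_iff_not_dvd l1).2 fun e => l5 (e.mul_left _))
    have hU : (uM : ZMod M) = l := ZMod.coe_unitOfCoprime _ _
    have a1 : Gd (t ψ) (L.r ψ).trace := ⟨tt ψ, wT ℓ, fun w v e => by
      rw [hT l uM ψ l1 l6 hU l3, e, ← ifl_T2 hR i hU (hu ℓ), wT, wd, FreeAlgebra.lift_ι_apply,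
        Sum.elim_inl, Pi.one_apply, inv_one, dg_one, map_one]
      rfl, (ps.frT ℓ ψ l3).symm, congrArg π (MvPolynomial.eval₂Hom_X' _ _ _)⟩
    have a2 : Gd (d ψ) (L.r ψ).det := ⟨dd ψ, wS ℓ, fun w v e => by
      rw [hS l uM ψ l1 l6 hU l3, e, ← ifl_S2 hR i hU (hu ℓ), wS, wd, FreeAlgebra.lift_ι_apply,
        Sum.elim_inr, Pi.one_apply, inv_one, mul_one, dg_one, map_one]
      rfl, (ps.frS ℓ ψ l3).symm, congrArg π (MvPolynomial.eval₂Hom_X' _ _ _)⟩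
    have a3 : ∀ k, Gd (t (ψ ^ k)) (L.r (ψ ^ k)).trace := fun k => by
      induction k using Nat.twoStepInduction with
      | zero =>
        have := gI 2
        rw [pow_zero, ps.tf.one, map_one, Matrix.trace_one]
        simpa using this
      | one => rwa [pow_one]
      | more k i1 i2 =>
        have e := ps.tf.mul (ψ ^ (k + 1)) ψ
        rw [← pow_succ, pow_succ ψ k, mul_inv_cancel_right, ← pow_succ, mul_comm] at e
        rw [eq_sub_of_add_eq e.symm, map_pow, tr_pow, ← map_pow, ← map_pow]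
        exact gS (gM a1 i2) (gM a2 i1)
    have a4 : ∀ k, Gd (d (ψ ^ k)) (L.r (ψ ^ k)).det := fun k => by
      induction k with
      | zero => simpa using gI 1
      | succ k ih =>
        rw [pow_succ, map_mul, map_mul, Units.val_mul, Matrix.det_mul]
        exact gM ih a2
    have e0 : ψ ^ k = g * (g⁻¹ * ψ ^ k) := (mul_inv_cancel_left _ _).symm
    have e1 : π.mapMatrix (L.r (ψ ^ k)) = π.mapMatrix (L.r g) := by
      rw [e0, map_mul, map_mul, show π.mapMatrix (L.r (g⁻¹ * ψ ^ k)) = 1 from l4.2, mul_one]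
    obtain ⟨p, y, b1, b2, b3⟩ := a3 k
    obtain ⟨p', y', c1, c2, c3⟩ := a4 k
    refine ⟨⟨p, y, b1, ?_, b3.trans ?_⟩, p', y', c1, ?_, c3.trans ?_⟩
    · rw [b2, e0, (v3 _ l4.1).2]
    · have e2 := congrArg Matrix.trace e1
      rw [Matrix.trace_fin_two, Matrix.trace_fin_two] at e2
      rw [Matrix.trace_fin_two, Matrix.trace_fin_two, map_add, map_add]
      exact e2
    · rw [c2, e0, map_mul, (v3 _ l4.1).1, mul_one]
    · rw [RingHom.map_det, RingHom.map_det, e1]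
  have e : ∀ x, ∃ c : Ob E, FreeAlgebra.lift ℤ (sys r φ) x = (c : E) ∧ Gd (β x) c := by
    intro x
    induction x using FreeAlgebra.induction with
    | grade0 n =>
      refine ⟨n, by rw [AlgHom.commutes, eq_intCast, Subring.coe_intCast], ?_⟩
      rw [eq_intCast, map_intCast]
      exact gI n
    | grade1 s =>
      rw [FreeAlgebra.lift_ι_apply]
      rcases s with ℓ | ℓ
      · exact ⟨_, (htr (φ ℓ)).symm, (ps.frT ℓ _ (hφ ℓ)) ▸ (gg (φ ℓ)).1⟩
      · exact ⟨_, (hdt (φ ℓ)).symm, (ps.frS ℓ _ (hφ ℓ)) ▸ (gg (φ ℓ)).2⟩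
    | mul p q hp hq =>
      obtain ⟨a, a1, a2⟩ := hp
      obtain ⟨b, b1, b2⟩ := hq
      exact ⟨a * b, by rw [map_mul, a1, b1, Subring.coe_mul], map_mul β p q ▸ gM a2 b2⟩
    | add p q hp hq =>
      obtain ⟨a, a1, a2⟩ := hp
      obtain ⟨b, b1, b2⟩ := hq
      exact ⟨a + b, by rw [map_add, a1, b1, Subring.coe_add], map_add β p q ▸ gA a2 b2⟩
  refine ⟨K.sup id + 1, fun x hx => ?_⟩
  obtain ⟨c, c1, p, y, c2, c3, c4⟩ := e x
  rw [hK2 x fun k hk => hx k (Nat.lt_succ_of_le (Finset.le_sup (f := id) hk)), fq.ker] at c3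
  have h1 := hs p fun w hw => hι (by
    rw [c2 w _ (hv w).symm, map_zero]
    exact (congrArg _ (congrArg Subtype.val (c3 _ (Finset.mem_image_of_mem _ hw)))).trans
      (map_zero _))
  have h2 : ev0 L.r p ∈ I := (pow_Ob hϖ j).2 (by
    have := dvd_Ob.1 h1
    rwa [SubmonoidClass.coe_pow, norm_pow] at this)
  rw [Ideal.Quotient.eq_zero_iff_mem.2 h2] at c4
  rw [c1]
  exact lt_of_le_of_lt ((pow_Ob hϖ j).1 (Ideal.Quotient.eq_zero_iff_mem.1 c4.symm)) hj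

end Vale.Agent.P022S.OutX
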