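import Vale.Agent.P022S.Wx.Defs
import Vale.Agent.P022S.Wx.OutH7
import Vale.Agent.P022S.Fp.FmBasic
import Vale.Agent.P022D.V.GenA

/-!
# P022S: row OUTX
-/

set_option linter.all false

open IsLocalRing

noncomputable section

namespace Vale.Agent.P022S.Wx

open Vale.Agent.P022 Vale.Agent.P022D.V Vale.Agent.P022E.Fm
open Vale.Agent.P022D.Fm (Mt AM rD)
open Vale.Agent.P022D.Top (Ob LimR ex_PA)
open Vale.Agent.P022D.As (Tg tt dd)
open Vale.Agent.P027M.M (ze)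

theorem wh_tr {O S : Type} [CommRing O] [CommRing S] [Algebra O S] {M R A n : ℕ} [NeZero M]
    (h : R ∣ M) {z : O} {b : (ZMod M)ˣ} (hb : (b : ZMod M) = n) (hn : n ≡ A [MOD R]) {v : FT M S}
    (hW : ∀ x : ℕ, z ^ (A * x) • rt O S (un ((A * x : ℕ) : ZMod M)) v = v)
    (hK : v ∈ Iv O S (Kq M R)) :
    rt O S (dg 1 b) v ∈ Wh O S M (z ^ A) ∧ rt O S (dg 1 b) v ∈ Iv O S (Kq M R) := by
  refine ⟨fun x => ?_, mem_Iv.2 fun g hg => ?_⟩
  · obtain ⟨t, ht⟩ := hn.symm.dvd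
    have e := congrArg (Int.cast : ℤ → ZMod M) ht
    push_cast at e
    have e1 : un (x : ZMod M) * dg 1 b =
        dg 1 b * (un ((A * x : ℕ) : ZMod M) * un ((R : ZMod M) * ((t : ZMod M) * (x : ZMod M)))) := by
      rw [Gn.un_mul]
      apply Units.ext
      rw [Units.val_mul, Units.val_mul, un_coe, un_coe, dg_coe, hb]
      ext i j
      fin_cases i <;> fin_cases j <;> simp [Matrix.mul_apply, Fin.sum_univ_two]
      linear_combination (x : ZMod M) * e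
    rw [rt_rt, e1, ← rt_rt, ← rt_rt, mem_Iv.1 hK _ (Gn.un_mem _), ← map_smul, ← pow_mul, hW]
  · have m : (dg 1 b)⁻¹ * g * dg 1 b ∈ Kq M R := (Ds.mem_Kq h).2 (by
      rw [map_mul, map_mul, (Ds.mem_Kq h).1 hg, mul_one, map_inv, inv_mul_cancel])
    rw [rt_rt, show g * dg 1 b = dg 1 b * ((dg 1 b)⁻¹ * g * dg 1 b) by group, ← rt_rt,
      mem_Iv.1 hK _ m]

/-- **row OUTX** -/
theorem outxC : OUTX := by
  intro E _ _ _ _ _ r U X N _ _ hX htr hdt hN P hO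
  have hU := hX.ok
  have eM : P.M = N * AX X := by
    rw [P.lv.eq, Fin.prod_univ_zero, mul_one, Su.N, hU.NW1, one_mul, hU.NC, hN, AX,
      Finset.prod_sdiff hX.sub]
  have eN : P.M = U.N := by rw [P.lv.eq, Fin.prod_univ_zero, mul_one]
  have oM : Odd P.M := eN ▸ hU.odd
  haveI : NeZero P.M := ⟨oM.pos.ne'⟩
  have A0 : AX X ≠ 0 := fun e => NeZero.ne P.M (by rw [eM, e, mul_zero])
  have N0 : N ≠ 0 := fun e => NeZero.ne P.M (by rw [eM, e, zero_mul])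
  have cop : Nat.Coprime N (AX X) := by
    rw [hN, AX]
    refine Nat.Coprime.prod_left fun l hl => Nat.Coprime.prod_right fun a ha => ?_
    have h1 := Finset.mem_sdiff.1 hl
    exact (Nat.coprime_primes (hU.prC h1.1).1 (hU.prC (hX.sub ha)).1).2 fun e => h1.2 (e ▸ ha)
  obtain ⟨n, n1, n2⟩ := Nat.chineseRemainder cop (AX X) 1
  have cn : Nat.Coprime n P.M := by
    rw [eM]
    refine Nat.Coprime.mul_right ?_ ?_
    · rw [Nat.Coprime, n1.gcd_eq]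
      exact cop.symm
    · rw [Nat.Coprime, n2.gcd_eq, Nat.gcd_one_left]
  have dv : N ∣ P.M := ⟨_, eM⟩
  have eD : P.M / AX X = N := by rw [eM, Nat.mul_div_cancel _ (Nat.pos_of_ne_zero A0)]
  let b := ZMod.unitOfCoprime n cn
  let ι0 : Mt P.ev (Wx X P.X) →+ FT P.M (RD (Ob E)) :=
    { toFun := fun w => (((show Wx X P.X from w) : U.GG P.M) : AM (Ob E) P.M)
      map_zero' := rfl
      map_add' := fun _ _ => rfl }
  have sm : ∀ (p : Tg (Ob E)) w, ι0 (p • w) =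
      ((P.ev p • ((show Wx X P.X from w) : U.GG P.M) : U.GG P.M) : AM (Ob E) P.M) := fun _ _ => rfl
  have mz : ∀ w, ι0 w ∈ Zx U X P.M 0 := fun w =>
    P022D.Fm.mem_of_sub (show Wx X P.X from w).2.1
  have tr := fun w => wh_tr dv (b := b) (ZMod.coe_unitOfCoprime _ _) n1 ((mem_WA U).1 (mz w).1.2)
    (eD ▸ (mz w).2)
  have hϖ : Irreducible U.ϖ := (IsDiscreteValuationRing.irreducible_iff_uniformizer _).2
    (le_antisymm (fun x hx => Ideal.mem_span_singleton.2 (hU.uni.dvd x hx))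
      ((Ideal.span_singleton_le_iff_mem _).2 hU.uni.nu))
  refine OutX.limX (L := P022G.subL U.L X) htr hdt hU.ok.cont (M := P.M) (R := N) (i := U.i)
    (z := U.z ^ AX X) oM (eN ▸ hU.three) dv dvd_rfl ?_
    ((rt (Ob E) _ (dg 1 b)).toLinearMap.toAddMonoidHom.comp ι0) (fun v w e => ?_)
    (fun w => ((All.div _ _ oM (eN ▸ hU.three)).2.2.2.1 U.i _
      (show Wx X P.X from w).1.2.1).2.1 _)
    (fun w => (tr w).1) (fun w => (tr w).2) (fun p u φ hp h2 hu hφ w => ?_)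
    (fun p u φ hp h2 hu hφ w => ?_) hϖ hO
  · rw [map_pow, hU.z, ← eN, eM]
    have a0 : ((AX X : ℕ) : ℂ) ≠ 0 := Nat.cast_ne_zero.2 A0
    have a1 : (N : ℂ) ≠ 0 := Nat.cast_ne_zero.2 N0
    simp only [ze]
    rw [← Complex.exp_nat_mul]
    congr 1
    push_cast
    field_simp
  · have e1 := congrArg (rt (Ob E) _ (dg 1 b)⁻¹) e
    change rt (Ob E) _ _ (rt (Ob E) _ _ (ι0 v)) = rt (Ob E) _ _ (rt (Ob E) _ _ (ι0 w)) at e1
    rw [rt_rt, rt_rt, inv_mul_cancel, map_one] at e1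
    exact Subtype.ext (Subtype.ext e1)
  · obtain ⟨h, rfl⟩ := ex_PA hp h2 hu
    change rt (Ob E) _ _ (ι0 _) = T2 _ _ _ _ _ (rt (Ob E) _ _ (ι0 w))
    rw [← rt_T2, sm, show P.ev (tt φ) = P.X.t φ from MvPolynomial.eval₂Hom_X' _ _ _]
    exact congrArg _ (P.ok.op.frT ⟨p, h⟩ φ hφ _)
  · obtain ⟨h, rfl⟩ := ex_PA hp h2 hu
    change rt (Ob E) _ _ (ι0 _) = S2 _ _ _ _ _ (rt (Ob E) _ _ (ι0 w))
    rw [← rt_S2, sm, show P.ev (dd φ) = P.X.d φ from MvPolynomial.eval₂Hom_X' _ _ _]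
    exact congrArg _ (P.ok.op.frS ⟨p, h⟩ φ hφ _)

end Vale.Agent.P022S.Wx
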