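import Vale.Agent.P022S.Wx.Defs
import Vale.Agent.P022S.Fp.FmDic
import Vale.Agent.P022S.Fp.FmDia
import Vale.Agent.P022S.Fp.FmHc

/-!
# P022S: the rows YX and KX
-/

set_option linter.all false

noncomputable section

namespace Vale.Agent.P022S.Wx

open Vale.Agent.P022 Vale.Agent.P022D.V Vale.Agent.P022E.V Vale.Agent.P022E.Fm
open Vale.Agent.P022D.W.Step (kl Dv mem_kl1)
open Vale.Agent.P022D.Fm (Mt AM rD HA)
open Vale.Agent.P022D.Rep (XS XJ SesX It)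

variable {O F : Type} [CommRing O] [IsLocalRing O] [Co O] [Field F] {U : Su O F} {X : Finset ℕ}

namespace Yx

theorem nc (h : Ux U X) : U.NC = AX X * ∏ l ∈ U.L.C \ X, l := by
  rw [h.ok.NC, AX, mul_comm, Finset.prod_sdiff h.sub]

theorem mul_dvd (h : Ux U X) {l : ℕ} (hl : l ∈ U.L.C) (hx : l ∉ X) : AX X * l ∣ U.NC := by
  rw [nc h]
  exact Nat.mul_dvd_mul_left _ (Finset.dvd_prod_of_mem (fun k => k) (Finset.mem_sdiff.2 ⟨hl, hx⟩))

theorem div_dvd {M a b : ℕ} (h1 : a ∣ b) (h2 : b ∣ M) : M / b ∣ M / a := by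
  obtain ⟨c, rfl⟩ := h1
  obtain ⟨e, rfl⟩ := h2
  rcases Nat.eq_zero_or_pos (a * c) with z | z
  · simp [z]
  · rw [Nat.mul_div_cancel_left _ z, mul_assoc,
      Nat.mul_div_cancel_left _ (Nat.pos_of_mul_pos_right z)]
    exact dvd_mul_left _ _

variable [CharP F 2] {M : ℕ}

theorem ncM (L : U.Lm M) : U.NC ∣ M := (dvd_mul_left _ _).trans L.dvd

/-- the Whittaker condition outside `X` -/
theorem wa (h : Ux U X) (L : U.Lm M) {v : AM O M} (h1 : v ∈ U.WhP M) :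
    v ∈ WA U M (AX X) ↔ ∀ l ∈ U.L.C, l ∉ X → ∀ x : ℕ,
      U.z ^ (M / l * x) • rD O (un ((M / l * x : ℕ) : ZMod M)) v = v := by
  rw [mem_WA]
  constructor
  · intro k l hl hx x
    obtain ⟨c, e⟩ : AX X ∣ M / l :=
      Nat.dvd_div_of_mul_dvd (mul_comm (AX X) l ▸ (mul_dvd h hl hx).trans (ncM L))
    rw [e, mul_assoc]
    exact k _
  · intro k x
    have hd : ∀ y : ℕ, U.z ^ y • rD O (un (y : ZMod M)) v = v ↔
        Function.minimalPeriod (Red.wo (RD O) M U.z) v ∣ y := fun y => by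
      rw [← Function.isPeriodicPt_iff_minimalPeriod_dvd, Function.IsPeriodicPt, Function.IsFixedPt,
        Red.wo_it]
      rfl
    have a := (hd _).1 (mem_WhP.1 h1 1)
    rw [mul_one, nc h] at a
    refine (hd _).2 ((Nat.Coprime.dvd_of_dvd_mul_right
      (Nat.Coprime.prod_right fun l hl => ?_) a).mul_right _)
    obtain ⟨l1, l2⟩ := Finset.mem_sdiff.1 hl
    have b := (hd _).1 (k l l1 l2 1)
    rw [mul_one] at b
    exact ((h.ok.ok.pr l (Finset.mem_union_right _ l1)).1.coprime_iff_not_dvd.2 fun c =>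
      (Dic.levGs h.ok L l1).2.2.1 (c.trans b)).symm

variable [hC : ∀ l : U.L.C, Fact l.1.Prime] {n : ℕ} {D : Dt U M n}

/-- invariance at all primes of `X` -/
theorem iv (h : Ux U X) (L : U.Lm M) (hD : D.Ok) (w : U.Wb M n) :
    ((w : U.GG M) : AM O M) ∈ Iv O (RD O) (Kq M (M / AX X)) ↔
      ∀ a ∈ X, ((w : U.GG M) : AM O M) ∈ Iv O (RD O) (Kq M (M / a)) := by
  have hA : AX X ∣ U.NC := ⟨_, nc h⟩
  constructor
  · intro k a ha
    exact P022D.V.mem_Iv.2 fun g hg => P022D.V.mem_Iv.1 k g (P022D.Rep.Kq_mono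
      (div_dvd (Finset.dvd_prod_of_mem (fun k => k) ha) (hA.trans (ncM L))) hg)
  · intro k
    refine P022D.V.mem_Iv.2 fun g hg => ?_
    have dv : ∀ l : U.L.C, l.1 ∣ M := fun l => (Dic.levGs h.ok L l.2).2.2.2.2
    have e := hD.act g (P022D.Rep.Kq_mono (div_dvd hA (ncM L)) hg)
      (fun l => QuotientGroup.mk (pr (dv l) g)) (fun _ _ => rfl) w
    let H : Submonoid (∀ l, U.Gam l) :=
      { carrier := {γ | D.E.ρ γ w = w}
        one_mem' := by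
          show D.E.ρ 1 w = w
          rw [map_one]
          rfl
        mul_mem' := fun {a b} ha hb => by
          show D.E.ρ (a * b) w = w
          rw [map_mul, Module.End.mul_apply, hb, ha] }
    have m : (fun l => QuotientGroup.mk (pr (dv l) g)) ∈ H :=
      Submonoid.pi_mem_of_mulSingle_mem (H := H) _ fun l => by
        by_cases c : l.1 ∈ X
        · exact (Dic.fix_iffGs h.ok L hD l w).2 (k _ c) _
        · rw [Dic.pr_Kq (dv l) (Nat.dvd_div_of_mul_dvd ((mul_dvd h l.2 c).trans (ncM L))) hg,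
            QuotientGroup.mk_one, Pi.mulSingle_one]
          exact H.one_mem
    rw [show D.E.ρ _ w = w from m] at e
    exact e.symm

end Yx

variable [CharP F 2] [hC : ∀ l : U.L.C, Fact l.1.Prime]
  {Cc : ∀ l : U.L.C, P022D.Rep.Ch (ZMod l.1) F}

/-- **row YX** -/
theorem yxC (h : Ux U X) (hc : U.IsCh Cc) : YX U X Cc := by
  intro r n q P
  have L := (lqCGs h.ok).1 r n _ q _ _ P.lv
  haveI : NeZero P.M := ⟨L.odd.pos.ne'⟩
  have s1 : ∀ l : U.L.C, l ∈ SX U X ↔ l.1 ∉ X := fun l => by simp [SX]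
  ext v
  rw [(dicCGs h.ok hc (hcCGs h.ok) _ n L P.X P.ok).2.2.2, mem_kl1,
    mem_sb (stb_Zx U X L.dvd h.ok.zN n)]
  constructor
  · rintro ⟨a, b, c⟩
    obtain ⟨a1, a2⟩ := (mem_Wb L.dvd h.ok.zN).1 a
    exact ⟨⟨⟨a1, (Yx.wa h L a1.1.2).2 fun l hl hx => b ⟨l, hl⟩ ((s1 _).2 hx)⟩,
      (Yx.iv h L P.ok ⟨v, a⟩).2 fun l hl => c ⟨l, h.sub hl⟩ fun k => (s1 _).1 k hl⟩,
      Subtype.ext a2⟩
  · rintro ⟨⟨⟨a, b⟩, c⟩, d⟩
    have w := (mem_Wb L.dvd h.ok.zN).2 ⟨a, congrArg Subtype.val d⟩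
    exact ⟨w, fun l hl => (Yx.wa h L a.1.2).1 b l l.2 ((s1 _).1 hl),
      fun l hl => (Yx.iv h L P.ok ⟨v, w⟩).1 c l (not_not.1 fun k => hl ((s1 _).2 k))⟩

/-- **row KX** -/
theorem kxC (h : Ux U X) : KX U X Cc := by
  rintro r n q P i v ⟨⟨w, hw, rfl⟩, -⟩ a ha
  have L := (lqCGs h.ok).1 r n _ q _ _ P.lv
  refine (Dic.fix_iffGs h.ok L P.ok ⟨a, h.sub ha⟩ w).1 ((P.X.E.kill_It _ w).1 fun s hs => ?_)
  refine hw ⟨a, h.sub ha⟩ s ?_
  show s ∈ (i.1 ⟨a, h.sub ha⟩).1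
  rw [i.2 _ ha]
  exact hs

end Vale.Agent.P022S.Wx
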