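import Vale.Agent.P022S.Wx.Defs
import Vale.Agent.P022S.Fp.FmBasic
import Vale.Agent.P022E.Fm.Prj

/-!
# P022S: the forms which are invariant at the auxiliary primes are divisible
-/

set_option linter.all false

noncomputable section

namespace Vale.Agent.P022S.Wx.H2

open Vale.Agent.P022 Vale.Agent.P022D.V Vale.Agent.P022E.V Vale.Agent.P022E.Fm
open Vale.Agent.P022D.Fm (AM rD)
open Vale.Agent.P022E.Fm.Pj (un0 ud_mul chi chi_ud cg_val pw_mod cgp)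

variable {O : Type} [CommRing O]

/-- scalars times unipotent elements -/
def H0 (R : ℕ) : Subgroup (GM R) where
  carrier := {g | ∃ x c, g = un x * dg c c}
  one_mem' := ⟨0, 1, by rw [un0, dg_one, one_mul]⟩
  mul_mem' := by
    rintro _ _ ⟨x, c, rfl⟩ ⟨y, d, rfl⟩
    exact ⟨_, _, ud_mul ..⟩
  inv_mem' := by
    rintro _ ⟨x, c, rfl⟩
    refine ⟨-x, c⁻¹, inv_eq_of_mul_eq_one_right ?_⟩
    rw [ud_mul, mul_inv_cancel, Units.val_one, mul_one, add_neg_cancel, un0, dg_one, one_mul]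

section chi

variable {R : ℕ} [NeZero R] {om : ℕ → O} {w : O} (omp : ∀ x y, x ≡ y [MOD R] → om x = om y)
include omp

theorem chi_mul (omm : ∀ x y, om (x * y) = om x * om y) (hw : w ^ R = 1) :
    ∀ g ∈ H0 R, ∀ h ∈ H0 R, chi om w (g * h) = chi om w g * chi om w h := by
  rintro _ ⟨x, c, rfl⟩ _ ⟨y, d, rfl⟩
  rw [ud_mul, chi_ud, chi_ud, chi_ud, mul_mul_mul_comm, ← omm, ← pow_add, mul_inv_cancel,
    Units.val_one, mul_one]
  congr 1
  · exact omp _ _ (cg_val dvd_rfl (by simpa using cg_refl _))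
  · exact pw_mod hw (cg_val dvd_rfl (by simpa using cg_refl _))

theorem chi_one (om1 : om 1 = 1) : chi om w (1 : GM R) = 1 := by
  have := chi_ud om w (0 : ZMod R) 1 1
  rwa [un0, dg_one, mul_one, ZMod.val_zero, pow_zero, mul_one,
    omp _ 1 (cg_val dvd_rfl (by simpa using cg_refl _)), om1] at this

end chi

variable [Co O]

/-- the elements for which `v` is an eigenvector -/
def Hv {M : ℕ} (H : Subgroup (GM M)) (χ : GM M → O) (h1 : χ 1 = 1)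
    (hm : ∀ g ∈ H, ∀ h ∈ H, χ (g * h) = χ g * χ h) (v : AM O M) : Subgroup (GM M) where
  carrier := {g | g ∈ H ∧ rt O (RD O) g v = χ g • v}
  one_mem' := ⟨H.one_mem, by rw [rt_one, h1, one_smul]⟩
  mul_mem' := fun {a b} ha hb => ⟨H.mul_mem ha.1 hb.1, by
    rw [← rt_rt, hb.2, map_smul, ha.2, smul_smul, hm a ha.1 b hb.1, mul_comm]⟩
  inv_mem' := fun {a} ha => ⟨H.inv_mem ha.1, by
    conv_rhs => rw [← rt_one (S := O) v, ← inv_mul_cancel a, ← rt_rt, ha.2, map_smul, smul_smul,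
      ← hm _ (H.inv_mem ha.1) a ha.1, inv_mul_cancel, h1, one_smul]⟩

variable {F : Type} [IsDomain O] [IsDiscreteValuationRing O] [P022D.Core.Coef O] [Field F]
  [CharP F 2] {U : Su O F} {X : Finset ℕ} [∀ l : U.L.C, Fact l.1.Prime]

theorem dvxC (hX : Ux U X) : DVX U X := fun M n L v hv => by
  have hU := hX.ok
  haveI : NeZero M := ⟨L.odd.pos.ne'⟩
  haveI := Pj.finq hU.uni
  have st := stb_Zx U X L.dvd hU.zN n
  obtain ⟨R, hR⟩ : ∃ R, R = ∏ l ∈ U.L.C \ X, l := ⟨_, rfl⟩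
  have eC : U.NC = AX X * R := by rw [hU.NC, hR, AX, mul_comm, Finset.prod_sdiff hX.sub]
  have eN : U.N = AX X * R := by rw [Su.N, hU.NW1, one_mul, eC]
  have omp : ∀ x y, x ≡ y [MOD R] → U.om x = U.om y := hR ▸ hX.omX
  have cop : Nat.Coprime (AX X) R := by
    rw [hR, AX]
    refine Nat.Coprime.prod_left fun a ha => Nat.Coprime.prod_right fun l hl => ?_
    rw [Finset.mem_sdiff] at hl
    exact (Nat.coprime_primes (hU.prC (hX.sub ha)).1 (hU.prC hl.1).1).2 fun e => hl.2 (e ▸ ha)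
  have N0 := hU.Nne
  rw [eN] at N0
  have R0 : R ≠ 0 := right_ne_zero_of_mul N0
  haveI : NeZero R := ⟨R0⟩
  have dN : R ∣ U.N := Dvd.intro_left _ eN.symm
  have dM : R ∣ M := dN.trans L.dvd
  have dA : R ∣ M / AX X := by
    obtain ⟨Q, hQ⟩ := L.dvd
    exact ⟨Q, Nat.div_eq_of_eq_mul_right (Nat.pos_of_ne_zero (left_ne_zero_of_mul N0))
      (by rw [hQ, eN, mul_assoc])⟩
  have z1 : (U.z ^ AX X) ^ R = 1 := by rw [← pow_mul, ← eN]; exact hU.zN
  have x1 : ((U.z ^ AX X) ^ (R - 1)) ^ R = 1 := by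
    rw [← pow_mul, mul_comm, pow_mul, z1, one_pow]
  obtain ⟨m, hm⟩ := exists_pow_eq_self_of_coprime
    (cop.coprime_dvd_right (orderOf_dvd_of_pow_eq_one x1))
  obtain ⟨w, hw, wz⟩ : ∃ w : O, w ^ R = 1 ∧ U.z ^ AX X * w ^ AX X = 1 :=
    ⟨((U.z ^ AX X) ^ (R - 1)) ^ m, by rw [← pow_mul, mul_comm, pow_mul, x1, one_pow], by
      rw [← pow_mul _ m, mul_comm m, pow_mul _ _ m, hm, mul_pow_sub_one R0, z1]⟩
  have wx : ∀ x : ℕ, U.z ^ (AX X * x) * w ^ (AX X * x) = 1 := fun x => by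
    rw [pow_mul, pow_mul, ← mul_pow, wz, one_pow]
  let χ : GM M → O := fun g => chi U.om w (pr dM g)
  let H := (H0 R).comap (pr dM)
  have c1 : χ 1 = 1 := by
    change chi _ _ (pr dM 1) = 1
    rw [map_one]
    exact chi_one omp hU.om1
  have cm : ∀ g ∈ H, ∀ h ∈ H, χ (g * h) = χ g * χ h := fun g a h b => by
    change chi _ _ (pr dM (g * h)) = _
    rw [map_mul]
    exact chi_mul omp hU.omm hw _ a _ b
  have kK : ∀ g ∈ Kq M R, g ∈ H ∧ χ g = 1 := fun g hg => by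
    have e := (Wq.mem_Kq dM g).1 hg
    refine ⟨?_, ?_⟩
    · change pr dM g ∈ H0 R
      rw [e]
      exact one_mem _
    · change chi _ _ (pr dM g) = 1
      rw [e]
      exact chi_one omp hU.om1
  have kD : ∀ a : (ZMod M)ˣ, dg a a ∈ H ∧ χ (dg a a) = U.om (a : ZMod M).val := fun a => by
    have e : pr dM (dg a a) = un 0 * dg (ZMod.unitsMap dM a) (ZMod.unitsMap dM a) := by
      rw [un0, one_mul]
      exact pr_dg dM a a
    refine ⟨⟨_, _, e⟩, ?_⟩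
    change chi _ _ (pr dM _) = _
    rw [e, chi_ud, ZMod.val_zero, pow_zero, mul_one]
    refine omp _ _ ((ZMod.natCast_eq_natCast_iff _ _ _).1 ?_)
    rw [ZMod.natCast_zmod_val, ZMod.unitsMap_val, ZMod.natCast_val]
  have kU : ∀ y : ℕ, un (y : ZMod M) ∈ H ∧ χ (un (y : ZMod M)) = w ^ y := fun y => by
    have e : pr dM (un (y : ZMod M)) = un (y : ZMod R) * dg 1 1 := by
      rw [pr_un, map_natCast, dg_one, mul_one]
    refine ⟨⟨_, _, e⟩, ?_⟩
    change chi _ _ (pr dM _) = _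
    rw [e, chi_ud, omp _ 1 (cg_val dvd_rfl (by simpa using cg_refl _)), hU.om1, one_mul]
    exact pw_mod hw (cg_val dvd_rfl (cg_refl _))
  have kT : ∀ a d : (ZMod M)ˣ, P022D.V.Cg M U.N a 1 → P022D.V.Cg M U.N d 1 →
      dg (a ^ 2 ^ n) (d ^ 2 ^ n) ∈ Kq M R := fun a d ha hd =>
    Wq.dg_K (cg_dvd2 dN (cgp ha _)) (cg_dvd2 dN (cgp hd _))
  obtain ⟨⟨⟨⟨v1, -⟩, v3⟩, v4⟩, v5⟩ := (mem_sb st).1 hv
  obtain ⟨u, hu, k, e⟩ := Pj.dvE L.odd L.asm_three hU.uni (Pj.hn2 hU.uni) hU.uni.ne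
    (Hv H χ c1 cm v) χ c1 (fun g a h b => cm g a.1 h b.1) v.2 fun g hg => hg.2
  have u4 : u ∈ WA U M (AX X) := (mem_WA U).2 fun x => by
    have := k _ ⟨(kU (AX X * x)).1, by
      rw [(kU _).2]
      conv_rhs => rw [← (mem_WA U).1 v4 x, smul_smul, mul_comm, wx, one_smul]
      rfl⟩
    rw [rD_apply, this, (kU _).2, smul_smul, wx, one_smul]
  refine ⟨⟨u, hu⟩, (mem_sb st).2 ⟨⟨⟨⟨mem_Ce.2 fun a ha => ?_, mem_WhP.2 fun x => ?_⟩,
    mem_TQ.2 fun a d ha hd => ?_⟩, u4⟩, fun g hg => ?_⟩, Subtype.ext e⟩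
  · rw [← (kD a).2]
    exact k _ ⟨(kD a).1, (kD a).2 ▸ mem_Ce.1 v1 a ha⟩
  · rw [eC, mul_assoc]
    exact (mem_WA U).1 u4 _
  · have := k _ ⟨(kK _ (kT a d ha hd)).1, by
      rw [(kK _ (kT a d ha hd)).2, one_smul]
      exact mem_TQ.1 v3 a d ha hd⟩
    rwa [(kK _ (kT a d ha hd)).2, one_smul] at this
  · have h := kK g (Kq_mono dA hg)
    exact h.2 ▸ k g ⟨h.1, h.2 ▸ v5 g hg⟩

end Vale.Agent.P022S.Wx.H2
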