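import Vale.Agent.P022S.Wx.Asm
import Vale.Agent.P022S.Wx.DvxH2
import Vale.Agent.P022S.Wx.Yx
import Vale.Agent.P022S.Wx.Gmx
import Vale.Agent.P022S.Wx.Cyx
import Vale.Agent.P022S.Wx.FamH40
import Vale.Agent.P022S.Wx.Combx
import Vale.Agent.P022S.Wx.Outx
import Vale.Agent.P022S.Ps.Main

/-!
# P022S: the forms side for the places outside the auxiliary primes
-/

set_option linter.all false

noncomputable section

namespace Vale.Agent.P022S.Wx

open Vale.Agent.P022D.V Vale.Agent.P022E.Fm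

variable {O F : Type} [CommRing O] [IsDomain O] [IsDiscreteValuationRing O] [P022D.Core.Coef O]
  [Co O] [Field F] [Finite F] [CharP F 2] {U : Su O F} {X : Finset ℕ}
  [hC : ∀ l : U.L.C, Fact l.1.Prime] {Cc : ∀ l : U.L.C, P022D.Rep.Ch (ZMod l.1) F}

theorem rxC (hX : Ux U X) (hc : U.IsCh Cc) : Rx U X Cc :=
  ⟨H2.dvxC hX, yxC hX hc, kxC hX, gmxC hX, cyxC hX,
    H40.dsxC hX (Ps.rw0 hX.ok hc).gop (diaCGs hX.ok) (clsCGs hX.ok), combxC U X Cc⟩

/-- **the forms side for the places outside `X`** -/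
theorem hdXC (hX : Ux U X) (hc : U.IsCh Cc) (P0 : L0 U) {S' : P022D.R.Dat O F}
    (hT : S'.T = U.S.T \ X) : HX U X Cc P0 S' :=
  hdX hX (Ps.rw0 hX.ok hc) (Ps.big0 hX.ok hc) (rxC hX hc) P0 hT

end Vale.Agent.P022S.Wx
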