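import Vale.Agent.P022S.Wx.Defs
import Vale.Agent.P022E.Rep.Hd

/-!
# P022S: the multiplicities for the types which are trivial at the auxiliary primes
-/

set_option linter.all false

noncomputable section

namespace Vale.Agent.P022S.Wx

open Vale.Agent.P022 Vale.Agent.P022D.V Vale.Agent.P022E.V Vale.Agent.P022E.Fm
open Vale.Agent.P022D.Rep (XS XJ XG SesX It TX Tu bnP)
open Vale.Agent.P022G (subL resJ)

variable {O F : Type} [CommRing O] [IsLocalRing O] [Co O] [Field F] (U : Su O F) (X : Finset ℕ)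
  [CharP F 2] [hC : ∀ l : U.L.C, Fact l.1.Prime]
  (Cc : ∀ l : U.L.C, P022D.Rep.Ch (ZMod l.1) F)

namespace H60

/-- the places outside `X` as places -/
def em (a : (subL U.L X).C) : U.L.C := ⟨a.1, (Finset.mem_sdiff.1 a.2).1⟩

instance (a : (subL U.L X).C) : Fact a.1.Prime := hC (em U X a)

/-- extension by the trivial type -/
def exT (I : Tu F fun a : (subL U.L X).C => U.Gam (em U X a)) : Tu F U.Gam := fun a =>
  if h : a.1 ∈ (subL U.L X).C then I ⟨a.1, h⟩ else It F (U.Gam a)

theorem exT_pos (I : Tu F fun a : (subL U.L X).C => U.Gam (em U X a)) (a : U.L.C)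
    (h : a.1 ∈ (subL U.L X).C) : exT U X I a = I ⟨a.1, h⟩ := dif_pos h

theorem exT_neg (I : Tu F fun a : (subL U.L X).C => U.Gam (em U X a)) (a : U.L.C)
    (h : a.1 ∉ (subL U.L X).C) : exT U X I a = It F (U.Gam a) := dif_neg h

theorem exT_up (I : Tu F fun a : (subL U.L X).C => U.Gam (em U X a)) (i : (subL U.L X).C)
    (p : Submodule (MonoidAlgebra F (U.Gam (em U X i))) (MonoidAlgebra F (U.Gam (em U X i)))) :
    exT U X (Function.update I i p) = Function.update (exT U X I) (em U X i) p := by
  funext a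
  by_cases e : a = em U X i
  · subst e
    rw [Function.update_self]
    exact (dif_pos (show (em U X i).1 ∈ (subL U.L X).C from i.2)).trans
      (Function.update_self i p I)
  · rw [Function.update_of_ne e]
    by_cases h : a.1 ∈ (subL U.L X).C
    · have k : (⟨a.1, h⟩ : (subL U.L X).C) ≠ i := fun k =>
        e (Subtype.ext (congrArg (fun x : (subL U.L X).C => x.1) k))
      exact (exT_pos U X _ a h).trans ((Function.update_of_ne k p I).trans (exT_pos U X I a h).symm)
    · exact (exT_neg U X _ a h).trans (exT_neg U X I a h).symm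

/-- extension of reachable tuples -/
def exX (I : TX (fun a : (subL U.L X).C => U.bn (em U X a)) fun a => Cc (em U X a)) :
    IZ U X Cc :=
  ⟨fun a => if h : a.1 ∈ (subL U.L X).C then I ⟨a.1, h⟩ else ⟨It F (U.Gam a), Or.inr rfl⟩,
    fun a ha => congrArg Subtype.val
      (dif_neg fun h : a.1 ∈ (subL U.L X).C => (Finset.mem_sdiff.1 h).2 ha)⟩

theorem exX_v (I : TX (fun a : (subL U.L X).C => U.bn (em U X a)) fun a => Cc (em U X a)) :
    TX.v (exX U X Cc I).1 = exT U X I.v := by
  funext a
  by_cases h : a.1 ∈ (subL U.L X).C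
  · exact (congrArg Subtype.val (dif_pos h)).trans (exT_pos U X I.v a h).symm
  · exact (congrArg Subtype.val (dif_neg h)).trans (exT_neg U X I.v a h).symm

theorem exX_J (J : Finset (subL U.L X).C) :
    exX U X Cc (XJ (fun a : (subL U.L X).C => U.bn (em U X a)) (fun a => Cc (em U X a)) J) =
      iJX U X Cc J := by
  refine Subtype.ext (funext fun a => ?_)
  have m : a ∈ up U X J ↔ ∃ h : a.1 ∈ (subL U.L X).C, (⟨a.1, h⟩ : (subL U.L X).C) ∈ J := by
    unfold up
    rw [Finset.mem_filter]
    exact and_iff_right (Finset.mem_univ _)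
  by_cases h : a.1 ∈ (subL U.L X).C
  · refine (dif_pos h).trans ?_
    by_cases k : (⟨a.1, h⟩ : (subL U.L X).C) ∈ J
    · exact (if_pos k).trans (if_pos (m.2 ⟨h, k⟩)).symm
    · exact (if_neg k).trans (if_neg fun c => k (m.1 c).2).symm
  · exact (dif_neg h).trans (if_neg fun c => h (m.1 c).1).symm

theorem exX_G :
    exX U X Cc (XG (fun a : (subL U.L X).C => U.bn (em U X a)) fun a => Cc (em U X a)) =
      igX U X Cc := by
  refine Subtype.ext (funext fun a => ?_)
  by_cases h : a.1 ∈ (subL U.L X).C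
  · exact (dif_pos h).trans (if_pos (show a ∈ SX U X from
      Finset.mem_filter.2 ⟨Finset.mem_univ _, (Finset.mem_sdiff.1 h).2⟩)).symm
  · exact (dif_neg h).trans (if_neg (show a ∉ SX U X from fun c =>
      h (Finset.mem_sdiff.2 ⟨a.2, (Finset.mem_filter.1 c).2⟩))).symm

end H60

open H60 in
/-- **row COMBX** -/
theorem combxC : COMBX U X Cc := by
  intro a a' h1 h2 N hN J
  rw [← exX_J, ← exX_G]
  refine P022E.Rep.combL (fun l : (subL U.L X).C => l.1) (fun l => Cc (em U X l)) a a' h1 h2
    (fun I => N (exX U X Cc I)) (fun i j k s => hN _ _ _ ?_) J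
  obtain ⟨I, l, p, q, x, hx, e1, e2, e3⟩ := s
  refine ⟨exT U X I, em U X l, p, q, x, hx, ?_, ?_, ?_⟩
  · exact (exX_v U X Cc i).trans ((congrArg (exT U X) e1).trans (exT_up U X I l _))
  · exact (exX_v U X Cc j).trans ((congrArg (exT U X) e2).trans (exT_up U X I l _))
  · exact (exX_v U X Cc k).trans ((congrArg (exT U X) e3).trans (exT_up U X I l _))

end Vale.Agent.P022S.Wx
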