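import Vale.Agent.P022S.Wx.Hd
import Vale.Agent.P022S.Fp.Base
import Vale.Agent.P022E.Fm.Fib
import Vale.Agent.P022E.Fm.Asm
import Vale.Agent.P022D.Top.Setup
import Vale.Agent.P022G.Rows

/-!
# P022S: the forms which are invariant at the auxiliary primes (definitions and rows)
-/

set_option linter.all false

noncomputable section

namespace Vale.Agent.P022S.Wx

open Vale.Agent.P022 Vale.Agent.P022D.V Vale.Agent.P022E.V Vale.Agent.P022E.Fm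
open Vale.Agent.P022D.W.Step (kl Dv)
open Vale.Agent.P022D.Fm (Mt AM rD HA)
open Vale.Agent.P022D.G (Inert)
open Vale.Agent.P022D.As (Tg cc tt dd dl ee Dq mul2)
open Vale.Agent.P022D.Rep (XS XJ SesX It)
open Vale.Agent.P022E.As (Gm Out2)
open Vale.Agent.P022S.Mod (Dm)
open Vale.Agent.P022G (subL resJ)

variable {O F : Type} [CommRing O] [IsLocalRing O] [Co O] [Field F] (U : Su O F) (X : Finset ℕ)

/-- the hypotheses on the set `X` -/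
structure Ux : Prop where
  ok : U.OkS
  sub : X ⊆ U.L.C
  unr : ∀ a ∈ X, ∀ s, Inert a s → U.L.r s = 1
  omX : ∀ x y, x ≡ y [MOD ∏ l ∈ U.L.C \ X, l] → U.om x = U.om y

/-- the product of the primes of `X` -/
def AX : ℕ := ∏ a ∈ X, a

/-- Whittaker outside `A` -/
def WA (M A : ℕ) : Submodule O (AM O M) :=
  ⨅ x : ℕ, LinearMap.ker (U.z ^ (A * x) • rD O (un ((A * x : ℕ) : ZMod M)) - 1)

/-- the group conditions -/
def Zx (M n : ℕ) : Submodule O (AM O M) :=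
  U.Zp M n ⊓ WA U M (AX X) ⊓ Iv O (RD O) (Kq M (M / AX X))

theorem mem_WA {M A : ℕ} {v : AM O M} : v ∈ WA U M A ↔
    ∀ x : ℕ, U.z ^ (A * x) • rD O (un ((A * x : ℕ) : ZMod M)) v = v := by
  simp only [WA, Submodule.mem_iInf, LinearMap.mem_ker, LinearMap.sub_apply, sub_eq_zero]
  rfl

theorem stb_Zx {M : ℕ} [NeZero M] (hN : U.N ∣ M) (hz : U.z ^ U.N = 1) (n : ℕ) :
    Stb (HA O M U.N U.i) (Zx U X M n) :=
  ((stb_Zp hN hz n).inf (stb_wh hN hz _)).inf (stb_Kq _)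

variable [CharP F 2] [hC : ∀ l : U.L.C, Fact l.1.Prime]
  (Cc : ∀ l : U.L.C, P022D.Rep.Ch (ZMod l.1) F)

variable {U} in
/-- **the divisible module** -/
def Wx {M n : ℕ} (D : Dt U M n) : Submodule (U.B M) (U.GG M) := kl (U.sb M (Zx U X M n)) D.JW

variable {U} in
/-- its torsion -/
def WxC {M n : ℕ} (D : Dt U M n) (j : ℕ) : Submodule (U.B M) (U.GG M) :=
  kl (Wx X D) {algebraMap O _ (U.ϖ ^ j)}

/-- the types which are trivial at `X` -/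
abbrev IZ : Type := {i : Ix U Cc // ∀ a : U.L.C, a.1 ∈ X → (i a).1 = It F (U.Gam a)}

/-- the places outside `X` -/
def SX : Finset U.L.C := Finset.univ.filter fun l => l.1 ∉ X

/-- Whittaker outside `X` -/
def igX : IZ U X Cc := ⟨XS U.bn Cc (SX U X), fun a ha => by
  unfold XS
  rw [if_neg (by simp [SX, ha])]⟩

open Classical in
/-- the image of a set of places -/
def up (J : Finset (subL U.L X).C) : Finset U.L.C :=
  Finset.univ.filter fun l => ∃ h : l.1 ∈ (subL U.L X).C, (⟨l.1, h⟩ : (subL U.L X).C) ∈ J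

theorem up_out (J : Finset (subL U.L X).C) {a : U.L.C} (ha : a.1 ∈ X) : a ∉ up U X J := by
  rintro h
  obtain ⟨-, h, -⟩ := Finset.mem_filter.1 h
  exact (Finset.mem_sdiff.1 h).2 ha

/-- cuspidal on `J` -/
def iJX (J : Finset (subL U.L X).C) : IZ U X Cc := ⟨XJ U.bn Cc (up U X J), fun a ha => by
  unfold XJ
  rw [if_neg (up_out U X J ha)]⟩

/-- the exact sequences -/
def SesZ (i j k : IZ U X Cc) : Prop := SesX U.bn Cc i.1 j.1 k.1

/-- row DVX -/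
def DVX : Prop := ∀ M n, U.Lm M → Dv (algebraMap O (U.B M) U.ϖ) (U.sb M (Zx U X M n))

/-- row YX -/
def YX : Prop := ∀ r n q (P : Lq U r n q),
  P.X.Y1 (XS U.bn Cc (SX U X)).v = kl (U.sb P.M (Zx U X P.M n)) {algebraMap O (U.B P.M) U.ϖ}

/-- row KX -/
def KX : Prop := ∀ r n q (P : Lq U r n q) (i : IZ U X Cc), ∀ v ∈ P.X.Y i.1.v, ∀ a ∈ X,
  (v : AM O P.M) ∈ Iv O (RD O) (Kq P.M (P.M / a))

/-- row GMX -/
def GMX : Prop := ∀ r n q (P : Lq U r n q), ∀ Y ≤ P.X.Z,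
  (∀ v ∈ Y, ∀ a ∈ X, (v : AM O P.M) ∈ Iv O (RD O) (Kq P.M (P.M / a))) →
  Gm U.ϖ (subL U.L X) (U.S.T \ X) (Finset.univ.image q) r (Mt P.ev Y) ∧
    Dm O (U.S.T \ X) (Finset.univ.image q) (Mt P.ev Y)

/-- row CYX -/
def CYX : Prop := ∀ r n q (P : Lq U r n q), ∃ χ : CharacterModule (Mt P.ev (WxC X P.X (n + 1))),
  ∀ w : Mt P.ev (WxC X P.X (n + 1)), (∀ u : Tg O, χ (u • w) = 0) →
    (∏ i, (ee n P.τ i - 1) : Tg O) ^ 5 • w = 0

/-- row FAMX -/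
def FAMX : Prop := ∀ j : ℕ, Fb.Fam (U := U) fun D => WxC X D j

/-- row DSX -/
def DSX : Prop := ∀ (P0 : L0 U) r n q (P : Lq U r n q) (φ : Fin r → GQ),
  (∀ i, IsFrob (q i) (φ i)) → ∀ j ≤ n, ∀ w : Mt P.ev (WxC X P.X (n + 1)), cc U.ϖ ^ j • w = 0 →
  (∀ s, (dl n P.τ s : Tg O) • w = w) → ∃ s : Finset (Mt P0.ev (Wx X P0.X)),
    (∀ v ∈ s, cc U.ϖ ^ j • v = 0) ∧
    ∀ p : Tg O, (∀ v ∈ s, p • v = 0) → (Dq q φ ^ 5 * p) • w = 0

/-- row COMBX -/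
def COMBX : Prop := ∀ a a' : (subL U.L X).C → ℕ,
  (∀ l : (subL U.L X).C, ∃ u, (l : ℕ) = 2 ^ (a l + 1) * (2 * u + 1) + 1) →
  (∀ l : (subL U.L X).C, ∃ v, (l : ℕ) + 1 = 2 ^ (a' l + 1) * (2 * v + 1)) →
  ∀ N : IZ U X Cc → ℕ∞, (∀ i j k, SesZ U X Cc i j k → N j = N i + N k) →
    ∀ J, (mul2 a a' J : ℕ∞) * N (iJX U X Cc J) ≤ N (igX U X Cc)

/-- **the forms side for the places outside `X`** -/
def HX (P0 : L0 U) (S' : P022D.R.Dat O F) : Prop :=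
  HDX False U.ϖ S' (subL U.L X) (fun i : IZ U X Cc => P0.Yb i.1) (Mt P0.ev (Wx X P0.X))
    (SesZ U X Cc) (igX U X Cc) (igX U X Cc) (iJX U X Cc)

/-- row OUTX -/
def OUTX : Prop := ∀ (E : Type) [NontriviallyNormedField E] [IsUltrametricDist E]
  [NormedAlgebra ℚ_[2] E] [FiniteDimensional ℚ_[2] E] [Co (P022D.Top.Ob E)]
  (r : GQ →* GL (Fin 2) E)
  (U : Su (P022D.Top.Ob E) (IsLocalRing.ResidueField (P022D.Top.Ob E))) (X : Finset ℕ) (N : ℕ)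
  [NeZero (N ^ 2)] [∀ l : U.L.C, Fact l.1.Prime], Ux U X →
  (∀ g, ((U.L.r g).trace : E) = (r g : Matrix (Fin 2) (Fin 2) E).trace) →
  (∀ g, ((U.L.r g).det : E) = (r g : Matrix (Fin 2) (Fin 2) E).det) →
  N = ∏ l ∈ U.L.C \ X, l → ∀ P0 : L0 U,
  Out2 U.ϖ (subL U.L X) (Mt P0.ev (Wx X P0.X)) → P022D.Top.LimR (N ^ 2) r

end Vale.Agent.P022S.Wx
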