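import Vale.Agent.P022S.Wx.Defs
import Vale.Agent.P022S.Fp.FmPrj

/-!
# P022S: row DVX
-/

set_option linter.all false

noncomputable section

namespace Vale.Agent.P022S.Wx.H26

open Vale.Agent.P022 Vale.Agent.P022D.V Vale.Agent.P022E.V Vale.Agent.P022E.Fm
open Vale.Agent.P022D.Fm (AM rD)
open Vale.Agent.P022E.Fm.Pj (Hb chi chi_ud un0 ud_mul pw_mod cg_val Dp)

section chr
variable {O : Type} [CommRing O] {R : ℕ} [NeZero R] {om : ℕ → O} {w : O}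

theorem chi_mulR (hm : ∀ x y, om (x * y) = om x * om y) (hp : ∀ x y, x ≡ y [MOD R] → om x = om y)
    (hw : w ^ R = 1) : ∀ g ∈ Hb R R 1 0, ∀ h ∈ Hb R R 1 0,
    chi om w (g * h) = chi om w g * chi om w h := by
  rintro _ ⟨x, A, D, h, rfl⟩ _ ⟨y, A', D', h', rfl⟩
  rw [ud_mul, chi_ud, chi_ud, chi_ud, mul_mul_mul_comm, ← hm, ← pow_add]
  refine congrArg₂ (· * ·) (hp _ _ (cg_val dvd_rfl (by simpa using cg_refl _))) ?_
  obtain ⟨t, ht⟩ := h.cg
  refine pw_mod hw (cg_val dvd_rfl ⟨y * t, ?_⟩)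
  rw [ht, Nat.cast_add, ZMod.natCast_zmod_val, ZMod.natCast_zmod_val]
  ring

theorem chi_un (h1 : om 1 = 1) (hp : ∀ x y, x ≡ y [MOD R] → om x = om y) (hw : w ^ R = 1)
    (y : ℕ) : un (y : ZMod R) ∈ Hb R R 1 0 ∧ chi om w (un (y : ZMod R)) = w ^ y := by
  have e : un (y : ZMod R) = un (y : ZMod R) * dg 1 1 := by rw [dg_one, mul_one]
  refine ⟨⟨_, 1, 1, Dp.one, e⟩, ?_⟩
  rw [e, chi_ud, hp _ 1 (cg_val dvd_rfl (by simpa using cg_refl _)), h1, one_mul]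
  exact pw_mod hw (cg_val dvd_rfl (cg_refl _))

theorem chi_dg (c : (ZMod R)ˣ) :
    dg c c ∈ Hb R R 1 0 ∧ chi om w (dg c c) = om (c : ZMod R).val := by
  have e : dg c c = un 0 * dg c c := by rw [un0, one_mul]
  refine ⟨⟨0, c, c, ⟨c, 1, 1, ⟨c - 1, by simp⟩, cg_refl _, cg_refl _, by simp, by simp⟩, e⟩, ?_⟩
  rw [e, chi_ud, ZMod.val_zero, pow_zero, mul_one]

end chr

variable {O F : Type} [CommRing O] [IsDomain O] [IsDiscreteValuationRing O] [P022D.Core.Coef O]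
  [Co O] [Field F] {U : Su O F} {X : Finset ℕ}

theorem dvx (hX : Ux U X) : DVX U X := fun M n L v hv => by
  have hU := hX.ok
  haveI : NeZero M := ⟨L.odd.pos.ne'⟩
  haveI := P022E.Fm.Pj.finq hU.uni
  have st := stb_Zx U X L.dvd hU.zN n
  obtain ⟨R, hR⟩ : ∃ R, R = ∏ l ∈ U.L.C \ X, l := ⟨_, rfl⟩
  have eC : U.NC = R * AX X := by rw [hU.NC, hR, AX, Finset.prod_sdiff hX.sub]
  have eN : U.N = R * AX X := by rw [Su.N, hU.NW1, one_mul, eC]
  have hp : ∀ x y, x ≡ y [MOD R] → U.om x = U.om y := hR ▸ hX.omX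
  have h0 := hU.Nne
  rw [eN] at h0
  haveI : NeZero R := ⟨left_ne_zero_of_mul h0⟩
  have cop : Nat.Coprime (AX X) R := by
    rw [hR, AX]
    refine Nat.Coprime.prod_left fun a ha => Nat.Coprime.prod_right fun l hl => ?_
    obtain ⟨l1, l2⟩ := Finset.mem_sdiff.1 hl
    exact (Nat.coprime_primes (hU.prC (hX.sub ha)).1 (hU.prC l1).1).2 fun e => l2 (e ▸ ha)
  obtain ⟨k, k1, k2⟩ := Nat.chineseRemainder cop 0 (R - 1)
  obtain ⟨j1, rfl⟩ := (Nat.modEq_zero_iff_dvd).1 k1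
  obtain ⟨j2, k3⟩ : R ∣ AX X * j1 + 1 := (Nat.modEq_zero_iff_dvd).1 ((k2.add_right 1).trans (by
    rw [Nat.sub_add_cancel (Nat.pos_of_ne_zero (NeZero.ne R))]
    exact (Nat.modEq_zero_iff_dvd).2 dvd_rfl))
  have zN := hU.zN
  rw [eN] at zN
  obtain ⟨w, ew⟩ : ∃ w, w = U.z ^ (AX X * j1) := ⟨_, rfl⟩
  have hw : w ^ R = 1 := by
    rw [ew, ← pow_mul, show AX X * j1 * R = R * AX X * j1 by ring, pow_mul, zN, one_pow]
  have hz : ∀ x, U.z ^ (AX X * x) * w ^ (AX X * x) = 1 := fun x => by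
    rw [ew, ← pow_mul, ← pow_add, show AX X * x + AX X * j1 * (AX X * x) =
      (AX X * j1 + 1) * (AX X * x) by ring, k3, show R * j2 * (AX X * x) = R * AX X * (j2 * x) by
        ring, pow_mul, zN, one_pow]
  have dN : R ∣ U.N := ⟨_, eN⟩
  have dM : R ∣ M := dN.trans L.dvd
  have dA : R ∣ M / AX X := by
    obtain ⟨Q, hQ⟩ := L.dvd
    rw [hQ, eN, mul_right_comm, Nat.mul_div_cancel _ (Nat.pos_of_ne_zero (right_ne_zero_of_mul h0))]
    exact dvd_mul_right _ _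
  let χ : GM M → O := fun g => chi U.om w (pr dM g)
  have hm := chi_mulR hU.omm hp hw
  have c1 : chi U.om w (1 : GM R) = 1 := by
    have := (chi_un hU.om1 hp hw 0).2
    rwa [Nat.cast_zero, un0, pow_zero] at this
  have χ1 : χ 1 = 1 := by
    show chi U.om w (pr dM 1) = 1
    rw [map_one, c1]
  have χm : ∀ g h, pr dM g ∈ Hb R R 1 0 → pr dM h ∈ Hb R R 1 0 → χ (g * h) = χ g * χ h :=
    fun g h a b => by
      show chi U.om w (pr dM (g * h)) = _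
      rw [map_mul, hm _ a _ b]
  have e1 : ∀ a : (ZMod M)ˣ, pr dM (dg a a) ∈ Hb R R 1 0 ∧ χ (dg a a) = U.om (a : ZMod M).val :=
    fun a => by
      show _ ∧ chi U.om w (pr dM (dg a a)) = _
      rw [P022D.V.pr_dg]
      refine ⟨(chi_dg (om := U.om) (w := w) _).1, (chi_dg _).2.trans (hp _ _ ?_)⟩
      refine cg_val dvd_rfl ?_
      rw [P022D.V.um_coe dM (ZMod.natCast_zmod_val (a : ZMod M)).symm]
      exact cg_refl _
  have e2 : ∀ y : ℕ, pr dM (un (y : ZMod M)) ∈ Hb R R 1 0 ∧ χ (un (y : ZMod M)) = w ^ y :=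
    fun y => by
      show _ ∧ chi U.om w (pr dM (un (y : ZMod M))) = _
      rw [P022D.V.pr_un, map_natCast]
      exact chi_un hU.om1 hp hw y
  have e3 : ∀ g ∈ Kq M R, pr dM g ∈ Hb R R 1 0 ∧ χ g = 1 := fun g hg => by
    have e : pr dM g = 1 := by
      apply Units.ext
      ext i j
      obtain ⟨y, hy⟩ := hg i j
      rw [P022D.V.pr_coe, hy, map_add, map_mul, map_natCast, ZMod.natCast_self, zero_mul,
        add_zero, Units.val_one, Matrix.one_apply, Matrix.one_apply]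
      split_ifs
      · exact map_one _
      · exact map_zero _
    show _ ∧ chi U.om w (pr dM g) = _
    rw [e, c1]
    exact ⟨one_mem _, rfl⟩
  have e4 : ∀ a d : (ZMod M)ˣ, P022D.V.Cg M U.N a 1 → P022D.V.Cg M U.N d 1 →
      dg (a ^ 2 ^ n) (d ^ 2 ^ n) ∈ Kq M R := fun a d ha hd =>
    Kq_mono dN (Gn.dg_mem (P022E.Fm.Pj.cgp ha _) (P022E.Fm.Pj.cgp hd _))
  have wa : ∀ (u : AM O M) (x : ℕ), U.z ^ (AX X * x) • rD O (un ((AX X * x : ℕ) : ZMod M)) u = u ↔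
      rD O (un ((AX X * x : ℕ) : ZMod M)) u = w ^ (AX X * x) • u := fun u x =>
    ⟨fun h => by
      conv_rhs => rw [← h, smul_smul, mul_comm, hz, one_smul],
    fun h => by rw [h, smul_smul, hz, one_smul]⟩
  let H : Subgroup (GM M) :=
    { carrier := {g | pr dM g ∈ Hb R R 1 0 ∧ rD O g v = χ g • (v : AM O M)}
      one_mem' := ⟨by rw [map_one]; exact one_mem _, by rw [rD_one, χ1, one_smul]; rfl⟩
      mul_mem' := fun {g h} a b => ⟨by rw [map_mul]; exact mul_mem a.1 b.1, by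
        rw [rD_mul, Module.End.mul_apply, b.2, map_smul, a.2, smul_smul, χm g h a.1 b.1, mul_comm]⟩
      inv_mem' := fun {g} a => by
        have b : pr dM g⁻¹ ∈ Hb R R 1 0 := by rw [map_inv]; exact inv_mem a.1
        refine ⟨b, ?_⟩
        have c : χ g⁻¹ * χ g = 1 := by rw [← χm _ _ b a.1, inv_mul_cancel, χ1]
        have d : rD O g⁻¹ (rD O g v) = v := by
          rw [← Module.End.mul_apply, ← rD_mul, inv_mul_cancel, rD_one]; rfl
        rw [a.2, map_smul] at d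
        conv_rhs => rw [← d, smul_smul, c, one_smul] }
  obtain ⟨⟨⟨⟨v1, -⟩, v3⟩, v4⟩, v5⟩ := (mem_sb st).1 hv
  obtain ⟨u, hu, k, e⟩ := P022E.Fm.Pj.dvE L.odd L.three hU.uni (P022E.Fm.Pj.hn2 hU.uni)
    hU.uni.ne H χ χ1 (fun g a h b => χm g h a.1 b.1) v.2 (fun g a => a.2)
  have u4 : ∀ x : ℕ, U.z ^ (AX X * x) • rD O (un ((AX X * x : ℕ) : ZMod M)) u = u := fun x =>
    (wa u x).2 ((k _ ⟨(e2 _).1, ((wa _ x).1 ((mem_WA U).1 v4 x)).trans
      (by rw [(e2 _).2])⟩).trans (by rw [(e2 _).2]))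
  have kq : ∀ g ∈ Kq M R, rD O g v = v → rD O g u = u := fun g hg h =>
    (k g ⟨(e3 g hg).1, by rw [h, (e3 g hg).2, one_smul]⟩).trans (by rw [(e3 g hg).2, one_smul])
  refine ⟨⟨u, hu⟩, (mem_sb st).2 ⟨⟨⟨⟨mem_Ce.2 fun a ha => ?_, mem_WhP.2 fun x => ?_⟩,
    mem_TQ.2 fun a d ha hd => kq _ (e4 a d ha hd) (mem_TQ.1 v3 a d ha hd)⟩, (mem_WA U).2 u4⟩,
    P022D.V.mem_Iv.2 fun g hg => kq g (Kq_mono dA hg) (P022D.V.mem_Iv.1 v5 g hg)⟩, Subtype.ext e⟩
  · exact (k _ ⟨(e1 a).1, (mem_Ce.1 v1 a ha).trans (by rw [(e1 a).2])⟩).trans (by rw [(e1 a).2])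
  · rw [eC, show R * AX X * x = AX X * (R * x) by ring]
    exact u4 _

end Vale.Agent.P022S.Wx.H26
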