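import Vale.Agent.P022S.Wx.Defs
import Vale.Agent.P022S.Fp.Dm
import Vale.Agent.P022S.Fp.FmAc0
import Vale.Agent.P022S.Fp.FmGmr
import Vale.Agent.P022S.Fp.FmCls
import Vale.Agent.P022S.Fp.FmDia
import Vale.Agent.P022S.Fp.FmHc
import Vale.Agent.P022E.Fm.Cen

/-!
# P022S, row GMX: the invariant forms are unramified at the auxiliary primes
-/

set_option linter.all false

noncomputable section

namespace Vale.Agent.P022S.Wx.H29

open NumberField
open Vale.Agent.P022 Vale.Agent.P022D.V Vale.Agent.P022E.V Vale.Agent.P022E.Fm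
open Vale.Agent.P022D.Fm (Mt AM rD HA)
open Vale.Agent.P022D.G (Inert)
open Vale.Agent.P022D.As (Tg cc tt dd)
open Vale.Agent.P022E.As (Gm)
open Vale.Agent.P022S.Mod (Dm)
open Vale.Agent.P022G (subL)
open Vale.Agent.P022E.Fm.Gmr

/-- scalars which are one modulo `M₀` -/
theorem dg_Kq {M M₀ : ℕ} {u : (ZMod M)ˣ} (h : Cg M M₀ u 1) : dg u u ∈ Kq M M₀ := by
  obtain ⟨t, ht⟩ := h
  intro i j
  rw [dg_coe]
  fin_cases i <;> fin_cases j
  · exact ⟨t, by simpa using ht⟩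
  · exact ⟨0, by simp⟩
  · exact ⟨0, by simp⟩
  · exact ⟨t, by simpa using ht⟩

variable {O F : Type} [CommRing O] [IsLocalRing O] [Co O] [Field F] {U : Su O F} {X : Finset ℕ}
  [CharP F 2] [hC : ∀ l : U.L.C, Fact l.1.Prime]

/-- **row GMX** -/
theorem gmxC (hX : Ux U X) (hL : LQ U) (hG : GMR U) : GMX U X := by
  intro r n q P Y hY hK
  have hU := hX.ok
  have hm := hL.1 _ _ _ _ _ _ P.lv
  haveI : NeZero P.M := ⟨hm.odd.pos.ne'⟩
  have sp : ∀ a ∈ X, Sp P.M (P.M / a) a := fun a ha =>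
    (Ac.lk_ofGs hU hm).sp (⟨a, hX.sub ha⟩ : U.L.C)
  have ho := P.ok.op
  have nT : ∀ l, l ∉ U.S.T \ X → l ∉ X → l ∉ U.S.T := fun l h1 h2 h3 =>
    h1 (Finset.mem_sdiff.2 ⟨h3, h2⟩)
  refine ⟨fun w => ?_, fun w => ⟨(dmS hU P Y w).1, fun l hp hT hQ Q h1 h2 s hs => ?_⟩⟩
  · have h := hG r n q P Y hY w
    refine ⟨h.fin, h.nil0, h.nilt, h.nild, h.nily, h.t1, h.tc, h.tm, h.d1, h.dm, h.opn,
      fun l hp hT hQ Q h1 h2 s hs g => ?_, h.clt, fun g hg => h.cld g ?_, h.yz⟩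
    · by_cases hl : l ∈ X
      · exact sub_tor w (by
          rw [ev_t, ev_t]
          exact ho.ur _ _ (sp l hl) s ⟨Q, h1, h2, hs⟩ _ (hK _ (vl_mem w) l hl) g)
      · exact h.unr l hp (nT l hT hl) hQ Q h1 h2 s hs g
    · rcases hg with c | c | ⟨l, hl, e⟩ | c
      · exact Or.inl c
      · exact Or.inr (Or.inl c)
      · refine Or.inr (Or.inr (Or.inl ⟨l, ?_, e⟩))
        rcases Finset.mem_union.1 hl with c | c
        · exact Finset.mem_union_left _ c
        · exact Finset.mem_union_right _ (Finset.mem_sdiff.1 c).1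
      · exact Or.inr (Or.inr (Or.inr c))
  · by_cases hl : l ∈ X
    · have S := sp l hl
      haveI : NeZero (P.M / l) := ⟨fun e => by
        have := S.eq
        rw [e, zero_mul] at this
        exact hm.odd.pos.ne' this⟩
      have l2 : l ≠ 2 := (hU.ok.pr l (Finset.mem_union_right _ (hX.sub hl))).2
      have c := Cen.cg_one (cyc_inert_mod (m := P.M) S.dvd hp
        (hp.coprime_iff_not_dvd.1 S.cop.symm) h1 h2 hs)
      refine vl_inj (Subtype.ext ?_)
      rw [vl_smul, ev_d, ho.cn_d_inert hp l2 ⟨Q, h1, h2, hs⟩]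
      have := hK _ (vl_mem w) l hl _ (dg_Kq c)
      rwa [one_smul] at this
    · exact (dmS hU P Y w).2 l hp (nT l hT hl) hQ Q h1 h2 s hs

/-- **row GMX**, closed -/
theorem gmx0 (hX : Ux U X) : GMX U X :=
  gmxC hX (lqCGs hX.ok) (gmrCGs hX.ok (hcCGs hX.ok) (lqCGs hX.ok) (clsCGs hX.ok) (diaCGs hX.ok))

end Vale.Agent.P022S.Wx.H29
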