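import Vale.Agent.P022S.Wx.Defs
import Vale.Agent.P022S.Fp.Dm
import Vale.Agent.P022S.Fp.FmDic
import Vale.Agent.P022S.Fp.FmHc
import Vale.Agent.P022E.Fm.Cen

/-!
# P022S: row GMX
-/

set_option linter.all false

noncomputable section

namespace Vale.Agent.P022S.Wx.H40

open NumberField
open Vale.Agent.P022 Vale.Agent.P022D.V Vale.Agent.P022E.V Vale.Agent.P022E.Fm
open Vale.Agent.P022D.Fm (Mt AM)
open Vale.Agent.P022D.As (Tg cc tt dd)
open Vale.Agent.P022E.Fm.Gmr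
open Vale.Agent.P022G (subL)

variable {O F : Type} [CommRing O] [IsLocalRing O] [Co O] [Field F] {U : Su O F} {X : Finset ℕ}
  [CharP F 2] [hC : ∀ l : U.L.C, Fact l.1.Prime]

theorem gmxC (hX : Ux U X) (hG : GMR U) : GMX U X := by
  intro r n q P Y hY hK
  have L := P.lv.lmGs hX.ok
  haveI : NeZero P.M := ⟨L.odd.pos.ne'⟩
  have sp : ∀ a ∈ X, Sp P.M (P.M / a) a := fun a ha => Dic.spGs hX.ok L (hX.sub ha)
  have hT : ∀ l, l ∉ U.S.T \ X → l ∉ X → l ∉ U.S.T := fun l h1 h2 h =>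
    h1 (Finset.mem_sdiff.2 ⟨h, h2⟩)
  refine ⟨fun w => ?_, fun w => ?_⟩
  · have g := hG r n q P Y hY w
    refine ⟨g.fin, g.nil0, g.nilt, g.nild, g.nily, g.t1, g.tc, g.tm, g.d1, g.dm, g.opn,
      fun l hp h1 h2 Q a1 a2 s a3 x => ?_, g.clt, fun x hx => g.cld x ?_, g.yz⟩
    · by_cases c : l ∈ X
      · exact sub_tor w (by
          rw [ev_t, ev_t]
          exact P.ok.op.ur _ l (sp l c) s ⟨Q, a1, a2, a3⟩ _ (hK _ (vl_mem w) l c) x)
      · exact g.unr l hp (hT l h1 c) h2 Q a1 a2 s a3 x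
    · rcases hx with a | a | ⟨l, hl, a⟩ | a
      · exact Or.inl a
      · exact Or.inr (Or.inl a)
      · refine Or.inr (Or.inr (Or.inl ⟨l, ?_, a⟩))
        rcases Finset.mem_union.1 hl with b | b
        · exact Finset.mem_union_left _ b
        · exact Finset.mem_union_right _ (Finset.mem_sdiff.1 b).1
      · exact Or.inr (Or.inr (Or.inr a))
  · have g := dmS hX.ok P Y w
    refine ⟨g.1, fun l hp h1 h2 Q a1 a2 s a3 => ?_⟩
    by_cases c : l ∈ X
    · have h := sp l c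
      have l2 := (hX.ok.ok.pr l (Finset.mem_union_right _ (hX.sub c))).2
      haveI : NeZero (P.M / l) := ⟨fun e => L.odd.pos.ne' (by rw [h.eq, e, zero_mul])⟩
      have e := Cen.cg_one (cyc_inert_mod (m := P.M) h.dvd hp
        (hp.coprime_iff_not_dvd.1 h.cop.symm) a1 a2 a3)
      refine vl_inj (Subtype.ext ?_)
      rw [vl_smul, ev_d]
      exact (P.ok.op.cn_d_inert hp l2 ⟨Q, a1, a2, a3⟩ _).trans
        (mem_Iv.1 (hK _ (vl_mem w) l c) _ (Wq.dg_K e e))
    · exact g.2 l hp (hT l h1 c) h2 Q a1 a2 s a3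

end Vale.Agent.P022S.Wx.H40
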