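import Vale.Agent.P022S.Wx.Defs
import Vale.Agent.P022S.Fp.Dm
import Vale.Agent.P022S.Fp.FmDic
import Vale.Agent.P022S.Fp.FmDia
import Vale.Agent.P022E.Fm.Nz1

/-!
# P022S: the forms which are invariant at `X` are Galois modules unramified at `X`
-/

set_option linter.all false

noncomputable section

namespace Vale.Agent.P022S.Wx

open Vale.Agent.P022 Vale.Agent.P022.H853 Vale.Agent.P022D.V Vale.Agent.P022E.V
open Vale.Agent.P022E.Fm
open Vale.Agent.P022D.Fm (Mt AM rD HA)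
open Vale.Agent.P022D.As (Tg cc tt dd)
open Vale.Agent.P022G (subL)

namespace H6

variable {O F : Type} [CommRing O] [IsLocalRing O] [Co O] [Field F] {U : Su O F} {X : Finset ℕ}
  [CharP F 2] [hC : ∀ l : U.L.C, Fact l.1.Prime]

/-- **row GMX** -/
theorem gmxC (hX : Ux U X) (hG : GMR U) : GMX U X := by
  intro r n q P Y hY hv
  have hU := hX.ok
  have hm := (lqCGs hU).1 _ _ _ _ _ _ P.lv
  have nT : ∀ {l : ℕ}, l ∉ U.S.T \ X → l ∉ X → l ∉ U.S.T := fun a b c =>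
    a (Finset.mem_sdiff.2 ⟨c, b⟩)
  refine ⟨fun w => ?_, fun w => ⟨(dmS hU P Y w).1, fun l hp hT hQ Q h1 h2 s hs => ?_⟩⟩
  · have h := hG r n q P Y hY w
    refine ⟨h.fin, h.nil0, h.nilt, h.nild, h.nily, h.t1, h.tc, h.tm, h.d1, h.dm, h.opn,
      fun l hp hT hQ Q h1 h2 s hs g => ?_, h.clt, fun g hg => h.cld g ?_, h.yz⟩
    · by_cases hl : l ∈ X
      · refine Gmr.sub_tor w ?_
        rw [Gmr.ev_t, Gmr.ev_t]
        exact P.ok.op.ur _ l (Dic.spGs hU hm (hX.sub hl)) s ⟨Q, h1, h2, hs⟩ _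
          (hv _ (Gmr.vl_mem w) l hl) g
      · exact h.unr l hp (nT hT hl) hQ Q h1 h2 s hs g
    · rcases hg with a | a | ⟨l, a, b⟩ | a
      · exact Or.inl a
      · exact Or.inr (Or.inl a)
      · refine Or.inr (Or.inr (Or.inl ⟨l, ?_, b⟩))
        rcases Finset.mem_union.1 a with a | a
        · exact Finset.mem_union_left _ a
        · exact Finset.mem_union_right _ (Finset.mem_sdiff.1 a).1
      · exact Or.inr (Or.inr (Or.inr a))
  · by_cases hl : l ∈ X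
    · have sp := Dic.spGs hU hm (hX.sub hl)
      haveI : NeZero P.M := ⟨hm.odd.pos.ne'⟩
      haveI : NeZero (P.M / l) := ⟨fun e => NeZero.ne P.M (Nat.eq_zero_of_zero_dvd (e ▸ sp.dvd))⟩
      have l2 := (hU.ok.pr l (Finset.mem_union_right _ (hX.sub hl))).2
      have c1 : Cg P.M (P.M / l) (cyc P.M s : (ZMod P.M)ˣ) 1 := by
        rw [← Nz.map_one_iff sp.dvd, P022E.Fm.cyc_map]
        exact P022E.Fm.cyc_inert hp (hp.coprime_iff_not_dvd.1 sp.cop.symm) h1 h2 hs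
      refine Gmr.vl_inj ?_
      rw [Gmr.vl_smul, Gmr.ev_d]
      apply Subtype.ext
      rw [P.ok.op.dI l hp l2 s ⟨Q, h1, h2, hs⟩ (cyc P.M s) (fun ζ e => cyc_spec s e)]
      exact (hv _ (Gmr.vl_mem w) l hl _ (Cyc.dg_Kq c1 c1)).trans (one_smul _ _)
    · exact (dmS hU P Y w).2 l hp (nT hT hl) hQ Q h1 h2 s hs

end H6

end Vale.Agent.P022S.Wx
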