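import Vale.Agent.P022S.Wx.Defs
import Vale.Agent.P022S.Fp.Dm
import Vale.Agent.P022S.Fp.FmDic
import Vale.Agent.P022E.Fm.Cen

/-!
# P022S: the forms which are invariant at `X` are unramified at `X`
-/

set_option linter.all false

noncomputable section

namespace Vale.Agent.P022S.Wx.H73

open Vale.Agent.P022 Vale.Agent.P022D.V Vale.Agent.P022E.V Vale.Agent.P022E.Fm
open Vale.Agent.P022D.Fm (Mt AM rD HA)
open Vale.Agent.P022D.As (Tg cc tt dd)
open Vale.Agent.P022E.As (Gm)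
open Vale.Agent.P022S.Mod (Dm)
open Vale.Agent.P022G (subL)

theorem cg1 {M K : ℕ} [NeZero M] {x : ZMod M} (h : x.val ≡ 1 [MOD K]) : Cg M K x 1 := by
  obtain ⟨c, hc⟩ := h.symm.dvd
  refine ⟨(c : ZMod M), ?_⟩
  have e := congrArg (Int.cast : ℤ → ZMod M) hc
  push_cast at e
  rw [ZMod.natCast_zmod_val] at e
  rw [← e, add_sub_cancel]

theorem dgK {M K : ℕ} {a : (ZMod M)ˣ} (ha : Cg M K a 1) : dg a a ∈ Kq M K := by
  obtain ⟨x, hx⟩ := ha
  intro i j
  rw [dg_coe]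
  fin_cases i <;> fin_cases j
  exacts [⟨x, by simpa using hx⟩, ⟨0, by simp⟩, ⟨0, by simp⟩, ⟨x, by simpa using hx⟩]

variable {O F : Type} [CommRing O] [IsLocalRing O] [Co O] [Field F] {U : Su O F} {X : Finset ℕ}
  [CharP F 2] [hC : ∀ l : U.L.C, Fact l.1.Prime]

open Vale.Agent.P022E.Fm.Gmr in
/-- **row GMX** -/
theorem gmxC (hX : Ux U X) (hL : LQ U) (hG : GMR U) : GMX U X := by
  intro r n q P Y hY hv
  have hU := hX.ok
  have hm := hL.1 _ _ _ _ _ _ P.lv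
  haveI : NeZero P.M := ⟨hm.odd.pos.ne'⟩
  have ho := P.ok.op
  have k : ∀ {l : ℕ}, l ∉ U.S.T \ X → l ∉ X → l ∉ U.S.T := fun h1 h2 h3 =>
    h1 (Finset.mem_sdiff.2 ⟨h3, h2⟩)
  refine ⟨fun w => ?_, fun w => ⟨(dmS hU P Y w).1, fun l hp hT hQ Q h1 h2 s hs => ?_⟩⟩
  · have g := hG r n q P Y hY w
    refine ⟨g.fin, g.nil0, g.nilt, g.nild, g.nily, g.t1, g.tc, g.tm, g.d1, g.dm, g.opn,
      fun l hp hT hQ Q h1 h2 s hs z => ?_, g.clt, fun z hz => g.cld z ?_, g.yz⟩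
    · by_cases hl : l ∈ X
      · exact sub_tor w (by
          rw [ev_t, ev_t]
          exact ho.ur _ l (Dic.spGs hU hm (hX.sub hl)) s ⟨Q, h1, h2, hs⟩ _
            (hv _ (vl_mem w) l hl) z)
      · exact g.unr l hp (k hT hl) hQ Q h1 h2 s hs z
    · rcases hz with h | h | ⟨l, hl, h⟩ | h
      · exact Or.inl h
      · exact Or.inr (Or.inl h)
      · refine Or.inr (Or.inr (Or.inl ⟨l, ?_, h⟩))
        rcases Finset.mem_union.1 hl with a | a
        · exact Finset.mem_union_left _ a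
        · exact Finset.mem_union_right _ (Finset.mem_sdiff.1 a).1
      · exact Or.inr (Or.inr (Or.inr h))
  · by_cases hl : l ∈ X
    · obtain ⟨-, -, h3, -, h5⟩ := Dic.levGs hU hm (hX.sub hl)
      haveI : NeZero (P.M / l) :=
        ⟨(Nat.div_pos (Nat.le_of_dvd hm.odd.pos h5) hp.pos).ne'⟩
      have e := ho.cn_d_inert hp (hU.ok.pr l (Finset.mem_union_right _ (hX.sub hl))).2
        ⟨Q, h1, h2, hs⟩ (vl w)
      have c := P022E.Fm.cyc_inert_mod (m := P.M) (Nat.div_dvd_of_dvd h5) hp h3 h1 h2 hs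
      refine vl_inj (Subtype.ext ?_)
      rw [vl_smul, ev_d, e, hv _ (vl_mem w) l hl _ (dgK (cg1 c)), one_smul]
    · exact (dmS hU P Y w).2 l hp (k hT hl) hQ Q h1 h2 s hs

end Vale.Agent.P022S.Wx.H73
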