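import Vale.Agent.P022S.Wx.Defs
import Vale.Agent.P022S.Fp.FmDic
import Vale.Agent.P022S.Fp.FmHc

/-!
# P022S: the rows YX and KX
-/

set_option linter.all false

noncomputable section

namespace Vale.Agent.P022S.Wx.H15

open Vale.Agent.P022 Vale.Agent.P022D.V Vale.Agent.P022E.V Vale.Agent.P022E.Fm
open Vale.Agent.P022D.W.Step (kl Dv mem_kl1 kl_le)
open Vale.Agent.P022D.Fm (Mt AM rD HA)
open Vale.Agent.P022D.Rep (XS XJ SesX It)

theorem wa_of {S R : Type} [CommRing S] [CommRing R] [Algebra S R] {M : ℕ} {z : S} {w : FT M R}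
    (A B : ℕ) (h0 : z ^ (B * A) • rt S R (un ((B * A : ℕ) : ZMod M)) w = w)
    (h : ∀ p : ℕ, p.Prime → p ∣ B → ∃ y : ℕ, ¬ p ∣ y ∧ z ^ y • rt S R (un (y : ZMod M)) w = w)
    (x : ℕ) : z ^ (A * x) • rt S R (un ((A * x : ℕ) : ZMod M)) w = w := by
  have hd : ∀ y : ℕ, z ^ y • rt S R (un (y : ZMod M)) w = w →
      Function.minimalPeriod (Red.wo R M z) w ∣ y := fun y hy =>
    Function.IsPeriodicPt.minimalPeriod_dvd ((Red.wo_it z y w).trans hy)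
  have hc : Nat.Coprime (Function.minimalPeriod (Red.wo R M z) w) B :=
    Nat.coprime_of_dvd fun p hp h1 h2 => by
      obtain ⟨y, hy, e⟩ := h p hp h2
      exact hy (h1.trans (hd y e))
  rw [← Red.wo_it]
  exact Function.isPeriodicPt_iff_minimalPeriod_dvd.2
    ((hc.dvd_of_dvd_mul_left (hd _ h0)).mul_right x)

variable {O F : Type} [CommRing O] [IsLocalRing O] [Co O] [Field F] {U : Su O F} {X : Finset ℕ}
  (hX : Ux U X) {M : ℕ} (hL : U.Lm M)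

include hX

theorem nc_eq : U.NC = (∏ l ∈ U.L.C \ X, l) * AX X := by
  rw [hX.ok.NC, AX, Finset.prod_sdiff hX.sub]

theorem ax_pos : 0 < AX X := Nat.pos_of_ne_zero fun e =>
  Red.NC_neGs hX.ok (by rw [nc_eq hX, e, mul_zero])

include hL

/-- the arithmetic of the levels -/
theorem lev : M / U.NC ∣ M / AX X ∧ (∀ a ∈ X, M / AX X ∣ M / a) ∧
    ∀ l ∈ U.L.C, l ∉ X → l ∣ M / AX X ∧ AX X ∣ M / l := by
  obtain ⟨c, e0⟩ := hL.dvd
  have hp : ∀ l ∈ U.L.C, 0 < l := fun l hl =>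
    (hX.ok.ok.pr l (Finset.mem_union_right _ hl)).1.pos
  have e1 : M / AX X = U.NW * (∏ l ∈ U.L.C \ X, l) * c :=
    Nat.div_eq_of_eq_mul_right (ax_pos hX) (by rw [e0, Su.N, nc_eq hX]; ring)
  have e2 : M / U.NC = U.NW * c :=
    Nat.div_eq_of_eq_mul_right (Nat.pos_of_ne_zero (Red.NC_neGs hX.ok)) (by rw [e0, Su.N]; ring)
  refine ⟨⟨∏ l ∈ U.L.C \ X, l, by rw [e1, e2]; ring⟩, fun a ha => ?_, fun l hl hn => ?_⟩
  · obtain ⟨k, hk⟩ : a ∣ AX X := Finset.dvd_prod_of_mem (fun k => k) ha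
    refine ⟨k, Nat.div_eq_of_eq_mul_right (hp a (hX.sub ha)) ?_⟩
    rw [e1]
    rw [e0, Su.N, nc_eq hX, hk]
    ring
  · obtain ⟨k, hk⟩ : l ∣ ∏ l ∈ U.L.C \ X, l :=
      Finset.dvd_prod_of_mem (fun k => k) (Finset.mem_sdiff.2 ⟨hl, hn⟩)
    refine ⟨⟨U.NW * k * c, by rw [e1, hk]; ring⟩, U.NW * k * c,
      Nat.div_eq_of_eq_mul_right (hp l hl) ?_⟩
    rw [e0, Su.N, nc_eq hX, hk]
    ring

variable [CharP F 2] [hC : ∀ l : U.L.C, Fact l.1.Prime] {n : ℕ} {D : Dt U M n} (hD : D.Ok)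

include hD

/-- invariance at all primes of `X` -/
theorem iv_all (w : U.Wb M n)
    (h : ∀ l : U.L.C, l.1 ∈ X → ((w : U.GG M) : AM O M) ∈ Iv O (RD O) (Kq M (M / l.1))) :
    ((w : U.GG M) : AM O M) ∈ Iv O (RD O) (Kq M (M / AX X)) := by
  rw [P022D.V.mem_Iv]
  intro k hk
  obtain ⟨h1, -, h3⟩ := lev hX hL
  have hl : ∀ l : U.L.C, l.1 ∣ M := fun l => (Dic.levGs hX.ok hL l.2).2.2.2.2
  let H : Subgroup (∀ l, U.Gam l) :=
    { carrier := {γ | D.E.ρ γ w = w}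
      one_mem' := by
        show D.E.ρ 1 w = w
        rw [map_one, Module.End.one_apply]
      mul_mem' := fun {a b} ha hb => by
        have ha' : D.E.ρ a w = w := ha
        have hb' : D.E.ρ b w = w := hb
        show D.E.ρ (a * b) w = w
        rw [map_mul, Module.End.mul_apply, hb', ha']
      inv_mem' := fun {a} ha => by
        have ha' : D.E.ρ a w = w := ha
        show D.E.ρ a⁻¹ w = w
        conv_lhs => rw [← ha', ← Module.End.mul_apply, ← map_mul, inv_mul_cancel, map_one,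
          Module.End.one_apply] }
  have hγ : (fun l : U.L.C => (QuotientGroup.mk (pr (hl l) k) : U.Gam l)) ∈ H := by
    refine Subgroup.pi_mem_of_mulSingle_mem _ fun l => ?_
    by_cases hx : l.1 ∈ X
    · exact (Dic.fix_iffGs hX.ok hL hD l w).2 (h l hx) _
    · rw [Dic.pr_Kq (hl l) (h3 l.1 l.2 hx).1 hk, QuotientGroup.mk_one, Pi.mulSingle_one]
      exact H.one_mem
  have e := hD.act k (P022D.Rep.Kq_mono h1 hk)
    (fun l : U.L.C => (QuotientGroup.mk (pr (hl l) k) : U.Gam l)) (fun l _ => rfl) w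
  have e2 : D.E.ρ (fun l : U.L.C => (QuotientGroup.mk (pr (hl l) k) : U.Gam l)) w = w := hγ
  rw [e2] at e
  exact e.symm

variable {Cc : ∀ l : U.L.C, P022D.Rep.Ch (ZMod l.1) F} (hc : U.IsCh Cc)

include hc

theorem mem_X (w : U.Wb M n) : w ∈ D.E.Y (XS U.bn Cc (SX U X)).v ↔
    ((w : U.GG M) : AM O M) ∈ Zx U X M n := by
  obtain ⟨-, h2, h3⟩ := lev hX hL
  have hS : ∀ l : U.L.C, l ∈ SX U X ↔ l.1 ∉ X := fun l => by simp [SX]
  have hw := (P022D.Fm.mem_of_sub w.2).1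
  rw [Dic.mem_SGs hX.ok hL hD hc]
  constructor
  · rintro ⟨a, b⟩
    refine ⟨⟨hw, (mem_WA U).2 ?_⟩, iv_all hX hL hD w fun l hl => b l fun e => (hS l).1 e hl⟩
    refine wa_of (AX X) (∏ l ∈ U.L.C \ X, l) ?_ fun p hp hd => ?_
    · have h1 := (Submodule.mem_iInf _).1 hw.1.2 1
      rw [mul_one, LinearMap.mem_ker, LinearMap.sub_apply, sub_eq_zero, nc_eq hX] at h1
      exact h1
    · obtain ⟨l, hl, h⟩ := hp.prime.exists_mem_finset_dvd hd
      obtain ⟨hl1, hl2⟩ := Finset.mem_sdiff.1 hl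
      rw [(Nat.prime_dvd_prime_iff_eq hp (hC ⟨l, hl1⟩).out).1 h]
      refine ⟨M / l, (Dic.levGs hX.ok hL hl1).2.2.1, ?_⟩
      have h1 := a ⟨l, hl1⟩ ((hS _).2 hl2) 1
      rw [mul_one] at h1
      exact h1
  · rintro ⟨⟨-, a⟩, b⟩
    refine ⟨fun l hl x => ?_, fun l hl => ?_⟩
    · obtain ⟨k, hk⟩ := (h3 l.1 l.2 ((hS l).1 hl)).2
      rw [hk, mul_assoc]
      exact (mem_WA U).1 a _
    · have hx : l.1 ∈ X := by_contra fun e => hl ((hS l).2 e)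
      have b' : ((w : U.GG M) : AM O M) ∈ Iv O (RD O) (Kq M (M / AX X)) := b
      rw [P022D.V.mem_Iv] at b' ⊢
      exact fun k hk => b' k (P022D.Rep.Kq_mono (h2 l.1 hx) hk)

theorem y1_X : D.Y1 (XS U.bn Cc (SX U X)).v =
    kl (U.sb M (Zx U X M n)) {algebraMap O (U.B M) U.ϖ} := by
  haveI : NeZero M := ⟨hL.odd.pos.ne'⟩
  have hz := Red.z_powGs hX.ok
  ext v
  rw [mem_kl1, mem_sb (stb_Zx U X hL.dvd hz n)]
  constructor
  · rintro ⟨w, hw, rfl⟩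
    exact ⟨(mem_X hX hL hD hc w).1 hw, Subtype.ext (P022D.Fm.mem_of_sub w.2).2⟩
  · rintro ⟨h1, h2⟩
    have h4 : U.ϖ • (v : AM O M) = 0 := congrArg Subtype.val h2
    exact ⟨⟨v, (mem_Wb hL.dvd hz).2 ⟨h1.1.1, h4⟩⟩, (mem_X hX hL hD hc _).2 h1, rfl⟩

omit hL hD in
/-- **row YX** -/
theorem yx : YX U X Cc := fun r n q P => y1_X hX (P.lv.lmGs hX.ok) P.ok hc

omit hL hD hc in
/-- **row KX** -/
theorem kx (Cc : ∀ l : U.L.C, P022D.Rep.Ch (ZMod l.1) F) : KX U X Cc := by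
  intro r n q P i v hv a ha
  obtain ⟨w, hw, rfl⟩ := kl_le _ _ hv
  refine (Dic.fix_iffGs hX.ok (P.lv.lmGs hX.ok) P.ok ⟨a, hX.sub ha⟩ w).1 ?_
  refine (P.X.E.kill_It _ w).1 fun r hr => hw ⟨a, hX.sub ha⟩ r ?_
  show r ∈ (i.1 ⟨a, hX.sub ha⟩).1
  rw [i.2 ⟨a, hX.sub ha⟩ ha]
  exact hr

end Vale.Agent.P022S.Wx.H15
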