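import Vale.Agent.P022S.Wx.Defs
import Vale.Agent.P022S.Fp.FmForms

/-!
P022S: row YX.
-/

set_option linter.all false

noncomputable section

namespace Vale.Agent.P022S.Wx.H70

open Vale.Agent.P022 Vale.Agent.P022D.V Vale.Agent.P022E.V Vale.Agent.P022E.Fm
open Vale.Agent.P022D.W.Step (kl mem_kl1)
open Vale.Agent.P022D.Fm (AM rD)
open Vale.Agent.P022D.Rep (XS)

variable {O F : Type} [CommRing O] [IsLocalRing O] [Co O] [Field F] {U : Su O F} {X : Finset ℕ}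
  [CharP F 2] [hC : ∀ l : U.L.C, Fact l.1.Prime] {Cc : ∀ l : U.L.C, P022D.Rep.Ch (ZMod l.1) F}

theorem cs_eq (hX : Ux U X) : Sb.CS U (SX U X) = AX X := by
  classical
  rw [Sb.CS, AX]
  refine Finset.prod_bij (fun l _ => l.1) (fun l hl => ?_) (fun _ _ _ _ e => Subtype.ext e)
    (fun a ha => ⟨⟨a, hX.sub ha⟩, ?_, rfl⟩) fun _ _ => rfl
  · simpa [SX] using hl
  · simpa [SX] using ha

/-- **row YX** -/
theorem yxC (hX : Ux U X) (hc : U.IsCh Cc) : YX U X Cc := by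
  intro r n q P
  have hU := hX.ok
  have L := (lqCGs hU).1 _ _ _ _ _ _ P.lv
  have H := hcCGs hU P.M L.odd L.asm_three
  have A := Sb.aux_ofGs hU P.lv
  haveI : NeZero P.M := ⟨L.odd.pos.ne'⟩
  have eN := Sb.NS_CSGs hU (SX U X)
  have cop := Sb.cop_NSGs hU (SX U X)
  rw [cs_eq hX] at eN cop
  have oN : Odd U.N := L.odd.of_dvd_nat L.dvd
  have oA : Odd (AX X) := oN.of_dvd_nat ⟨_, eN.trans (mul_comm _ _)⟩
  have oS : Odd (Sb.NS U (SX U X)) := oN.of_dvd_nat ⟨_, eN⟩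
  have eM : P.M / AX X = Sb.NS U (SX U X) * ∏ j, q j :=
    Nat.div_eq_of_eq_mul_left oA.pos (by rw [mul_right_comm, ← eN]; exact A.eq)
  have zN : U.z ^ U.N = 1 := hU.zN
  have st := stb_Zx U X L.dvd zN n
  ext v
  rw [mem_kl1, mem_sb st]
  constructor
  · rintro ⟨w, hw, rfl⟩
    haveI : NeZero (Sb.NS U (SX U X)) := ⟨oS.pos.ne'⟩
    let c := ((ZMod.unitOfCoprime _ cop.symm)⁻¹ : (ZMod (Sb.NS U (SX U X)))ˣ)
    have he : AX X * (c : ZMod (Sb.NS U (SX U X))).val ≡ 1 [MOD Sb.NS U (SX U X)] := by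
      rw [← ZMod.natCast_eq_natCast_iff, Nat.cast_mul, ZMod.natCast_zmod_val,
        ← ZMod.coe_unitOfCoprime _ cop.symm, Units.mul_inv, Nat.cast_one]
    have k := Sb.wh_XSGs hU A P.ok hc hw (by rw [cs_eq hX]; exact he)
    have b := (H.wb L n _).1 w.2
    refine ⟨⟨⟨b.1, (mem_WA U).2 fun x => ?_⟩, eM ▸ Sb.inv_XSGs hU A P.ok hw⟩, Subtype.ext b.2⟩
    have e := k (AX X * x)
    rw [cs_eq hX, ← pow_mul, ← pow_mul, ← mul_assoc] at e
    rw [← Sb.pow_mod zN (a := AX X * (c : ZMod (Sb.NS U (SX U X))).val * (AX X * x)) (by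
      rw [eN]
      exact (Nat.modEq_and_modEq_iff_modEq_mul cop).1 ⟨by simpa using he.mul_right (AX X * x),
        (Nat.modEq_zero_iff_dvd.2 ((dvd_mul_right _ _).mul_left _)).trans
          (Nat.modEq_zero_iff_dvd.2 (dvd_mul_right _ _)).symm⟩)]
    exact e
  · rintro ⟨⟨⟨h1, h2⟩, h3⟩, h0⟩
    have dA : AX X ∣ P.M := (Dvd.intro_left _ eN.symm).trans L.dvd
    refine ((dicCGs hU hc (hcCGs hU) P.M n L P.X P.ok).2.2.2 _ v).2
      ⟨(H.wb L n v).2 ⟨h1, congrArg Subtype.val h0⟩, fun l hl x => ?_, fun l hl => ?_⟩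
    · have sp := (Sb.spCGs hU A l).1
      obtain ⟨y, hy⟩ : AX X ∣ P.M / l.1 := by
        refine (Nat.Coprime.prod_left fun a ha => (Nat.coprime_primes
          (Sb.prCGs hU ⟨a, hX.sub ha⟩).1 sp.prime).2 fun e => ?_).dvd_of_dvd_mul_right (sp.eq ▸ dA)
        exact (Finset.mem_filter.1 hl).2 (e ▸ ha)
      rw [hy, mul_assoc]
      exact (mem_WA U).1 h2 _
    · have hl' : l.1 ∈ X := by simpa [SX] using hl
      exact mem_Iv.2 fun g hg => mem_Iv.1 h3 g (Sb.kq_mono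
        (Nat.div_dvd_div_left dA (Finset.dvd_prod_of_mem _ hl')) hg)

end Vale.Agent.P022S.Wx.H70
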